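import Vale.Agent.P146.H346.GueV
import Vale.Agent.P146.H698.FoDef
import Vale.Agent.P146.H443.PsiUp

/-!
# P146: Guerra's bound for the functional with two exponents and a plain field

`gue_lit : GueLit β fun N V x m T => PsiV N β V x m T` for every `β`.
-/

open MeasureTheory ProbabilityTheory Filter Topology Matrix

namespace Vale.Agent.P146.H346

set_option linter.unusedSectionVars false

open Vale.Agent.P157 (spin)
open Vale.Agent.P157.Lv
open Vale.Agent.P157.Par (Path Exponents spinPart)
open Vale.Agent.P146.Sk (Ix Wm Ft phi integral_disorder measurable_phi cfEquiv qf_cfEquiv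
  sg_cfEquiv)
open Vale.Agent.P146.Ub (fl mp_fl phi_fl trace_fl)
open Vale.Agent.P146.H877 (FH cont_FH FH_pos)
open Vale.Agent.P146.H698.FO (PsiV)
open Vale.Agent.P146.H443 (GueLit)

variable {N : ℕ} {β T x y : ℝ}

/-- the diagonal increases the moments -/
theorem mom_phi_le (hx : 0 < x) (hy : 0 < y) {G : (Pair N → ℝ) → ℝ} (hG : Lip G)
    {F : (Ix N → ℝ) → ℝ} (hF : Lip F)
    (h : ∀ z, F z = G (phi z) + β / 2 * (Wm N z).trace) :
    ∫ u, Real.exp (x * W2 y T G u) ∂(gI (Pair N)) ≤
      ∫ u, Real.exp (x * W2 y T F u) ∂(gI (Ix N)) := by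
  have hGl : Lip fun z : Ix N → ℝ => G (phi z) := lip_comp_phi hG
  have e0 : ∫ u, Real.exp (x * W2 y T G u) ∂(gI (Pair N)) =
      ∫ u, Real.exp (x * W2 y T (fun z : Ix N → ℝ => G (phi z)) u) ∂(gI (Ix N)) := by
    have e1 : ∀ u : Ix N → ℝ, W2 y T (fun z : Ix N → ℝ => G (phi z)) u = W2 y T G (phi u) := by
      intro u
      unfold W2
      congr 2
      have h := integral_disorder (N := N) (G := fun v => Real.exp (y * G (cb2 T (phi u) v)))
        ((lip_cb2 hG T (phi u)).measurable.const_mul y).exp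
      simp only [← phi_cb2] at h
      exact h.symm
    simp only [e1]
    exact integral_disorder (N := N) (G := fun u => Real.exp (x * W2 y T G u))
      ((measurable_W2 hG.measurable y T).const_mul x).exp
  rw [e0]
  set G' : (Ix N → ℝ) → ℝ := fun z => G (phi z) with hG'
  have mtr : Measurable fun z : Ix N → ℝ => (Wm N z).trace := by
    unfold Matrix.trace Wm
    simp only [Matrix.diag_apply, Matrix.of_apply]
    fun_prop
  -- the inner moment
  have hin : ∀ u, W2 y T G' u + β / 2 * (√(1 - T) * (Wm N u).trace) ≤ W2 y T F u := by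
    intro u
    have hcv : ∀ v, Real.exp (y * F (cb2 T u v)) =
        Real.exp (y * (β / 2 * (√(1 - T) * (Wm N u).trace))) *
        (Real.exp (y * G' (cb2 T u v)) * Real.exp (y * (β / 2 * (√T * (Wm N v).trace)))) := by
      intro v
      rw [h, trace_cb2, ← Real.exp_add, ← Real.exp_add]
      congr 1
      ring
    have hint := int_cb2 hF y T u
    have hint2 : Integrable (fun v => Real.exp (y * G' (cb2 T u v)) *
        Real.exp (y * (β / 2 * (√T * (Wm N v).trace)))) (gI (Ix N)) := by
      have := hint.const_mul (Real.exp (y * (β / 2 * (√(1 - T) * (Wm N u).trace))))⁻¹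
      refine this.congr (Eventually.of_forall fun v => ?_)
      simp only [hcv]
      rw [inv_mul_cancel_left₀ (Real.exp_pos _).ne']
    have h1 := sym_le (f := fun v => Real.exp (y * G' (cb2 T u v)))
      (t := fun v => y * (β / 2 * (√T * (Wm N v).trace)))
      ((lip_cb2 hGl T u).measurable.const_mul y).exp
      (((mtr.const_mul _).const_mul _).const_mul _)
      (fun v => (Real.exp_pos _).le)
      (fun v => by
        have : G' (cb2 T u (fl v)) = G' (cb2 T u v) := by
          simp only [hG', phi_cb2, phi_fl]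
        simp only [this])
      (fun v => by simp only [trace_fl]; ring) hint2
    have h2 : ∫ v, Real.exp (y * F (cb2 T u v)) ∂(gI (Ix N)) =
        Real.exp (y * (β / 2 * (√(1 - T) * (Wm N u).trace))) *
        ∫ v, Real.exp (y * G' (cb2 T u v)) * Real.exp (y * (β / 2 * (√T * (Wm N v).trace)))
          ∂(gI (Ix N)) := by
      simp only [hcv]
      rw [integral_const_mul]
    have h3 : Real.log (Real.exp (y * (β / 2 * (√(1 - T) * (Wm N u).trace))) *
        ∫ v, Real.exp (y * G' (cb2 T u v)) ∂(gI (Ix N))) ≤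
        Real.log (∫ v, Real.exp (y * F (cb2 T u v)) ∂(gI (Ix N))) := by
      refine Real.log_le_log (mul_pos (Real.exp_pos _) (int_cb2_pos hGl y T u)) ?_
      rw [h2]
      exact mul_le_mul_of_nonneg_left h1 (Real.exp_pos _).le
    rw [Real.log_mul (Real.exp_pos _).ne' (int_cb2_pos hGl y T u).ne', Real.log_exp] at h3
    unfold W2
    have h4 := mul_le_mul_of_nonneg_left h3 (show 0 ≤ 1 / y by positivity)
    refine le_trans (le_of_eq ?_) h4
    field_simp
    ring
  -- the outer moment
  have hW : ∀ u, W2 y T G' (fl u) = W2 y T G' u := by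
    intro u
    unfold W2
    have : ∀ v, G' (cb2 T (fl u) v) = G' (cb2 T u v) := fun v => by
      simp only [hG', phi_cb2, phi_fl]
    simp only [this]
  have hlG := lip_W2 hGl hy T
  have hlF2 := lip_W2 hF hy T
  have hpt : ∀ u, Real.exp (x * W2 y T G' u) * Real.exp (x * (β / 2 * (√(1 - T) *
      (Wm N u).trace))) ≤ Real.exp (x * W2 y T F u) := by
    intro u
    rw [← Real.exp_add, ← mul_add]
    exact Real.exp_le_exp.2 (mul_le_mul_of_nonneg_left (hin u) hx.le)
  have hiF := (hlF2.exp_eg x).integrable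
  have mG : Measurable fun u => Real.exp (x * W2 y T G' u) := (hlG.measurable.const_mul x).exp
  have mt : Measurable fun u : Ix N → ℝ => x * (β / 2 * (√(1 - T) * (Wm N u).trace)) :=
    ((mtr.const_mul _).const_mul _).const_mul _
  have hi : Integrable (fun u => Real.exp (x * W2 y T G' u) * Real.exp (x * (β / 2 *
      (√(1 - T) * (Wm N u).trace)))) (gI (Ix N)) := by
    refine hiF.mono' (mG.mul mt.exp).aestronglyMeasurable (Eventually.of_forall fun u => ?_)
    rw [Real.norm_of_nonneg (by positivity)]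
    exact hpt u
  have h1 := sym_le (f := fun u => Real.exp (x * W2 y T G' u))
    (t := fun u => x * (β / 2 * (√(1 - T) * (Wm N u).trace))) mG mt
    (fun u => (Real.exp_pos _).le) (fun u => by simp only [hW])
    (fun u => by simp only [trace_fl]; ring) hi
  exact h1.trans (integral_mono hi hiF hpt)

/-- the free energy in a field, in the coordinates of the full matrix -/
lemma FV_phi (hN : 0 < N) (β : ℝ) (h : Fin N → ℝ) (z : Ix N → ℝ) :
    FV β h z + N * Real.log 2 = FH N β h (phi z) + β / 2 * (Wm N z).trace := by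
  have hN' : (0 : ℝ) < N := by exact_mod_cast hN
  -- the energy, from the formula for the free energy of a single configuration
  have h1 : ∀ σ : Fin N → ℤˣ, β * hamiltonian N (phi z) σ =
      β / 2 * Sk.Vr.qf (Wm N z) σ - β / 2 * (Wm N z).trace := by
    intro σ
    have h2 : Sk.Vr.qf (Wm N z) σ = (Wm N z).trace + 2 * ∑ p : Pair N,
        Wm N z p.1.1 p.1.2 * (Sk.Vr.sg σ p.1.1 * Sk.Vr.sg σ p.1.2) := by
      unfold Sk.Vr.qf
      rw [Sk.Vr.sum_Ix_pair (fun i j => Wm N z i j * (Sk.Vr.sg σ i * Sk.Vr.sg σ j))]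
      · congr 1
        unfold Matrix.trace
        refine Finset.sum_congr rfl fun i _ => ?_
        rw [Sk.Vr.sg_sq, mul_one, Matrix.diag_apply]
      · intro i j
        rw [mul_comm (Sk.Vr.sg σ i), ← Matrix.transpose_apply (Wm N z), Sk.Wm_transpose]
    rw [h2, hamiltonian]
    have h3 : (1 / √(N : ℝ)) * ∑ p : Pair N, phi z p * ((σ p.1.1 : ℤ) : ℝ) *
        ((σ p.1.2 : ℤ) : ℝ) =
        ∑ p : Pair N, Wm N z p.1.1 p.1.2 * (Sk.Vr.sg σ p.1.1 * Sk.Vr.sg σ p.1.2) := by
      rw [Finset.mul_sum]
      refine Finset.sum_congr rfl fun p _ => ?_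
      simp only [phi, Wm, Matrix.of_apply, Sk.Vr.sg, Prod.mk.eta]
      rw [Real.sqrt_mul (by norm_num : (0 : ℝ) ≤ 2)]
      ring
    rw [h3]
    ring
  have h4 : ∑ σ : Fin N → ℤˣ, Real.exp (β * hamiltonian N (phi z) σ +
      ∑ i, h i * ((σ i : ℤ) : ℝ)) = Real.exp (N * Real.log 2 - β / 2 * (Wm N z).trace) *
      ∑ x : Fin N → Bool, Real.exp (β / 2 * Sk.qf (Wm N z) (spin x) - N * Real.log 2 +
        ∑ i, h i * spin x i) := by
    rw [← Equiv.sum_comp (cfEquiv N), Finset.mul_sum]
    refine Finset.sum_congr rfl fun x _ => ?_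
    rw [h1, qf_cfEquiv, ← Real.exp_add]
    congr 1
    have h5 : ∀ i, ((cfEquiv N x i : ℤ) : ℝ) = spin x i := fun i => sg_cfEquiv x i
    simp only [h5]
    ring
  have h6 : 0 < ∑ x : Fin N → Bool, Real.exp (β / 2 * Sk.qf (Wm N z) (spin x) -
      N * Real.log 2 + ∑ i, h i * spin x i) :=
    Finset.sum_pos (fun _ _ => Real.exp_pos _) Finset.univ_nonempty
  unfold FH FV
  rw [h4, Real.log_mul (Real.exp_pos _).ne' h6.ne', Real.log_exp]
  ring

/-- the free energy in a field is Lipschitz in the disorder -/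
lemma lip_FH (N : ℕ) (β : ℝ) (h : Fin N → ℝ) : Lip (FH N β h) := by
  have hl : ∀ σ : Fin N → ℤˣ, Lip fun g : Pair N → ℝ =>
      β * hamiltonian N g σ + ∑ i, h i * ((σ i : ℤ) : ℝ) := by
    intro σ
    unfold hamiltonian
    refine Lip.add (Lip.const_mul (Lip.const_mul (Lip.sum _ fun p _ => ?_) _) _) (Lip.const _)
    have h := (Lip.coord p).const_mul (((σ p.1.1 : ℤ) : ℝ) * ((σ p.1.2 : ℤ) : ℝ))
    refine (?_ : (fun y : Pair N → ℝ => y p * ((σ p.1.1 : ℤ) : ℝ) * ((σ p.1.2 : ℤ) : ℝ)) =
      fun y => ((σ p.1.1 : ℤ) : ℝ) * ((σ p.1.2 : ℤ) : ℝ) * y p) ▸ h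
    funext y
    ring
  let S : Sy (Pair N) (Fin N → ℤˣ) := ⟨fun _ => 0, 0, fun l => if l = 0 then 0 else 1,
    fun g σ => β * hamiltonian N g σ + ∑ i, h i * ((σ i : ℤ) : ℝ)⟩
  have hS : S.Reg :=
    { m0 := by
        show (if (0 : ℕ) = 0 then (0 : ℝ) else 1) = 0
        norm_num
      mK := by
        show (if (0 + 1 : ℕ) = 0 then (0 : ℝ) else 1) = 1
        norm_num
      mono := fun l hl => by
        have hl0 : l = 0 := Nat.le_zero.1 hl
        subst hl0
        show (if (0 : ℕ) = 0 then (0 : ℝ) else 1) ≤ if 0 + 1 = 0 then 0 else 1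
        norm_num
      pos := by
        show (0 : ℝ) < if (1 : ℕ) = 0 then 0 else 1
        norm_num
      lev := fun e => le_rfl
      lip := hl }
  exact hS.lip_top

lemma measurable_W2H (β y T V : ℝ) : Measurable fun p : (Fin N → ℝ) × (Pair N → ℝ) =>
    W2 y T (FH N β (√V • p.1)) p.2 := by
  have h0 : Measurable fun r : ((Fin N → ℝ) × (Pair N → ℝ)) × (Pair N → ℝ) =>
      ((√V • r.1.1, cb2 T r.1.2 r.2) : (Fin N → ℝ) × (Pair N → ℝ)) := by
    refine Measurable.prodMk (measurable_fst.fst.const_smul (√V)) ?_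
    exact (measurable_cb2 T).comp (measurable_fst.snd.prodMk measurable_snd)
  have h1 : Measurable fun r : ((Fin N → ℝ) × (Pair N → ℝ)) × (Pair N → ℝ) =>
      Real.exp (y * FH N β (√V • r.1.1) (cb2 T r.1.2 r.2)) :=
    ((((cont_FH β).measurable).comp h0).const_mul y).exp
  exact (h1.stronglyMeasurable.integral_prod_right' (ν := gI (Pair N))).measurable.log.const_mul _

/-- the moments increase with the exponent -/
lemma log_mom_mono {Ω : Type} [MeasurableSpace Ω] {μ : Measure Ω} [IsProbabilityMeasure μ]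
    {G : Ω → ℝ} {x y : ℝ} (hx : 0 < x) (hxy : x ≤ y)
    (hix : Integrable (fun g => Real.exp (x * G g)) μ)
    (hiy : Integrable (fun g => Real.exp (y * G g)) μ) :
    1 / x * Real.log (∫ g, Real.exp (x * G g) ∂μ) ≤
      1 / y * Real.log (∫ g, Real.exp (y * G g) ∂μ) := by
  have hy : 0 < y := hx.trans_le hxy
  have hpx : 0 < ∫ g, Real.exp (x * G g) ∂μ := integral_exp_pos hix
  have hpy : 0 < ∫ g, Real.exp (y * G g) ∂μ := integral_exp_pos hiy
  set a := Real.log (∫ g, Real.exp (y * G g) ∂μ) with ha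
  have hexpa : Real.exp a = ∫ g, Real.exp (y * G g) ∂μ := Real.exp_log hpy
  set w := x / y with hw
  have hw0 : 0 ≤ w := by positivity
  have hw1 : w ≤ 1 := (div_le_one hy).2 hxy
  have hpt : ∀ g, Real.exp (x * G g) ≤ Real.exp (w * a) * (w * Real.exp (-a) *
      Real.exp (y * G g) + (1 - w)) := by
    intro g
    have h1 := convexOn_exp.2 (Set.mem_univ (y * G g - a)) (Set.mem_univ 0) hw0
      (sub_nonneg.2 hw1) (by ring)
    simp only [smul_eq_mul, mul_zero, add_zero, Real.exp_zero, mul_one] at h1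
    have h2 : Real.exp (x * G g) = Real.exp (w * a) * Real.exp (w * (y * G g - a)) := by
      rw [← Real.exp_add]
      congr 1
      rw [hw]
      field_simp
      ring
    have h3 : Real.exp (y * G g - a) = Real.exp (-a) * Real.exp (y * G g) := by
      rw [← Real.exp_add]
      congr 1
      ring
    rw [h2]
    refine mul_le_mul_of_nonneg_left ?_ (Real.exp_pos _).le
    rw [h3] at h1
    linarith
  have h4 : ∫ g, Real.exp (x * G g) ∂μ ≤ Real.exp (w * a) := by
    have hi : Integrable (fun g => Real.exp (w * a) * (w * Real.exp (-a) * Real.exp (y * G g) +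
        (1 - w))) μ := ((hiy.const_mul (w * Real.exp (-a))).add
      (integrable_const (1 - w))).const_mul (Real.exp (w * a))
    refine (integral_mono hix hi hpt).trans (le_of_eq ?_)
    rw [integral_const_mul, integral_add (hiy.const_mul _) (integrable_const _),
      integral_const_mul, ← hexpa, mul_assoc, ← Real.exp_add]
    simp
  have h8 : Real.log (∫ g, Real.exp (x * G g) ∂μ) ≤ w * a :=
    (Real.log_le_iff_le_exp hpx).2 h4
  calc 1 / x * Real.log (∫ g, Real.exp (x * G g) ∂μ) ≤ 1 / x * (w * a) :=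
        mul_le_mul_of_nonneg_left h8 (by positivity)
    _ = 1 / y * a := by
        rw [hw]
        field_simp

/-- the functional with two exponents in the letters of this directory -/
lemma PsiV_eq (N : ℕ) (β V x y T : ℝ) : PsiV N β V x y T =
    1 / x * Real.log (∫ z, ∫ u, Real.exp (x * W2 y T (FH N β (√V • z)) u)
      ∂(gI (Pair N)) ∂(gI (Fin N))) := by
  unfold PsiV W2
  have e : ∀ a b : Pair N → ℝ, √(1 - T) • a + √T • b = cb2 T a b := by
    intro a b
    funext p
    simp [cb2]
  simp only [e]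
  congr 2
  refine integral_congr_ae (Eventually.of_forall fun z => ?_)
  refine integral_congr_ae (Eventually.of_forall fun u => ?_)
  simp only
  congr 1
  show x / y * Real.log (∫ v, _ ∂(gI (Pair N))) = _
  ring

/-- **Guerra's bound for the functional with two exponents.** -/
theorem psiV_le (hN : 0 < N) {K L : ℕ} (hL : 2 ≤ L) (hLK : L ≤ K) {m q : ℕ → ℝ}
    (hm : Exponents K m) (hq : Path K q) (hq0 : q 0 = 0) {V : ℝ} (hT : 0 ≤ T)
    (hT1 : T < 1) (hV : 0 ≤ V) (hx : 0 < x) (hxm : x ≤ m 1) :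
    PsiV N β V x (m L) T ≤ N * (Real.log 2 +
      spinPart K m (fun l => if l = 0 then 0 else β ^ 2 * q l + V) + V / 2 +
      β ^ 2 / 4 * (1 + ∑ l ∈ Finset.range (K + 1), (m (l + 1) - m l) * q l ^ 2) +
      β ^ 2 / 4 * (T / (1 - T) * ∑ l ∈ Finset.range L, (m (l + 1) - m l) * q l ^ 2)) := by
  have hm1 : 0 < m 1 := hx.trans_le hxm
  have hmL : 0 < m L := by
    have key : ∀ l, 1 ≤ l → l ≤ K → 0 < m l := by
      intro l hl
      induction l, hl using Nat.le_induction with
      | base => intro _; exact hm1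
      | succ l hl ih => intro hl'; exact (ih (by omega)).trans (hm.2.2 l (by omega))
    exact key L (by omega) hLK
  -- the functional of the full matrix
  set Fz : (Fin N → ℝ) → (Ix N → ℝ) → ℝ := fun z => FV β (√V • z) with hFz
  have hFl : ∀ z, Lip (Fz z) := fun z => lip_FV β (√V • z)
  have hi : ∀ x, Integrable (fun p : (Fin N → ℝ) × (Ix N → ℝ) =>
      Real.exp (x * W2 (m L) T (Fz p.1) p.2)) ((gI (Fin N)).prod (gI (Ix N))) := fun x =>
    int_W2V hL hLK hm β T V x
  have hle : ∀ z, ∫ u, Real.exp (x * W2 (m L) T (FH N β (√V • z)) u) ∂(gI (Pair N)) ≤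
      Real.exp (x * (N * Real.log 2)) *
        ∫ u, Real.exp (x * W2 (m L) T (Fz z) u) ∂(gI (Ix N)) := by
    intro z
    have h1 := mom_phi_le (T := T) (β := β) (G := FH N β (√V • z))
      (F := fun g => Fz z g + N * Real.log 2) hx hmL (lip_FH N β (√V • z))
      ((hFl z).add (Lip.const _)) (fun g => FV_phi hN β (√V • z) g)
    refine h1.trans (le_of_eq ?_)
    simp only [W2_add_const (hFl z) hmL]
    rw [← integral_const_mul]
    refine integral_congr_ae (Eventually.of_forall fun u => ?_)
    simp only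
    rw [← Real.exp_add]
    congr 1
    ring
  have hig : Integrable (fun z => Real.exp (x * (N * Real.log 2)) *
      ∫ u, Real.exp (x * W2 (m L) T (Fz z) u) ∂(gI (Ix N))) (gI (Fin N)) :=
    (hi x).integral_prod_left.const_mul _
  have hmH : Measurable fun z => ∫ u, Real.exp (x * W2 (m L) T (FH N β (√V • z)) u)
      ∂(gI (Pair N)) := by
    have h1 : Measurable fun p : (Fin N → ℝ) × (Pair N → ℝ) =>
        Real.exp (x * W2 (m L) T (FH N β (√V • p.1)) p.2) :=
      ((measurable_W2H β (m L) T V).const_mul x).exp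
    exact (h1.stronglyMeasurable.integral_prod_right' (ν := gI (Pair N))).measurable
  have hpos : ∀ z, 0 < ∫ u, Real.exp (x * W2 (m L) T (FH N β (√V • z)) u) ∂(gI (Pair N)) :=
    fun z => integral_exp_pos ((lip_W2 (lip_FH N β (√V • z)) hmL T).exp_eg x).integrable
  have hif : Integrable (fun z => ∫ u, Real.exp (x * W2 (m L) T (FH N β (√V • z)) u)
      ∂(gI (Pair N))) (gI (Fin N)) := by
    refine hig.mono' hmH.aestronglyMeasurable (Eventually.of_forall fun z => ?_)
    rw [Real.norm_of_nonneg (hpos z).le]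
    exact hle z
  have hIpos : 0 < ∫ z, ∫ u, Real.exp (x * W2 (m L) T (FH N β (√V • z)) u)
      ∂(gI (Pair N)) ∂(gI (Fin N)) := by
    rw [integral_pos_iff_support_of_nonneg (fun z => (hpos z).le) hif]
    have : Function.support (fun z => ∫ u, Real.exp (x * W2 (m L) T (FH N β (√V • z)) u)
        ∂(gI (Pair N))) = Set.univ := by
      ext z
      simp only [Function.mem_support, Set.mem_univ, iff_true]
      exact (hpos z).ne'
    rw [this]
    simp
  have h1 : PsiV N β V x (m L) T ≤ N * Real.log 2 + 1 / x * Real.log (∫ z, ∫ u,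
      Real.exp (x * W2 (m L) T (Fz z) u) ∂(gI (Ix N)) ∂(gI (Fin N))) := by
    rw [PsiV_eq]
    have h2 := Real.log_le_log hIpos (integral_mono hif hig hle)
    rw [integral_const_mul, ← integral_prod _ (hi x), Real.log_mul (Real.exp_pos _).ne'
      (integral_exp_pos (hi x)).ne', Real.log_exp, integral_prod _ (hi x)] at h2
    have h3 := mul_le_mul_of_nonneg_left h2 (show 0 ≤ 1 / x by positivity)
    refine h3.trans (le_of_eq ?_)
    field_simp
  have h2 : 1 / x * Real.log (∫ z, ∫ u,
      Real.exp (x * W2 (m L) T (Fz z) u) ∂(gI (Ix N)) ∂(gI (Fin N))) ≤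
      1 / m 1 * Real.log (∫ z, ∫ u,
      Real.exp (m 1 * W2 (m L) T (Fz z) u) ∂(gI (Ix N)) ∂(gI (Fin N))) := by
    rw [← integral_prod _ (hi x), ← integral_prod _ (hi (m 1))]
    exact log_mom_mono hx hxm (hi x) (hi (m 1))
  have h3 := gueV (β := β) hN hL hLK hm hq hq0 hT hT1 hV
  linarith

/-- **Guerra's bound for the functional with two exponents, as a literal.** -/
theorem gue_lit (β : ℝ) : GueLit β (fun N V x m T => PsiV N β V x m T) := by
  intro N K L m q hN hL hLK hm hq hq0 T V x hT hT1 hV hx hxm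
  exact psiV_le hN hL hLK hm hq hq0 hT hT1 hV hx hxm

end Vale.Agent.P146.H346
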