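import Vale.Agent.P146.H346.GueT

/-!
# P146: Guerra's bound with two shares for the free energy of the problem file

`ps_free_le` : for `2 ≤ L ≤ K`, the log-moment of order `m 1` over the share `1 - T` of the
log-moment of order `m L` over the share `T` of the disorder of `freeEnergy N β` is at most
`N (log 2 + PSK β K m q + β² / 4 * (T / (1 - T)) * ∑_{l < L} (m (l + 1) - m l) q l ^ 2)`.
-/

open MeasureTheory ProbabilityTheory Filter Topology Matrix

namespace Vale.Agent.P146.H346

set_option linter.unusedSectionVars false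

open Vale.Agent.P157 (spin)
open Vale.Agent.P157.Lv
open Vale.Agent.P157.Par (Path Exponents)
open Vale.Agent.P146.Sk (Ix Wm Ft PSK pN phi integral_disorder measurable_phi)
open Vale.Agent.P146.Sk.Vr (F0 F1 free_phi eg_F0 eg_F1)
open Vale.Agent.P146.Ub (F0_eq_Ft fl mp_fl phi_fl trace_fl measurable_free lip_free lip_Ft)

section gen

variable {ι : Type} [Fintype ι] {F G : (ι → ℝ) → ℝ} {x y T : ℝ}

lemma exp_W2 (hF : Lip F) (hy : 0 < y) (u : ι → ℝ) :
    Real.exp (y * W2 y T F u) = ∫ v, Real.exp (y * F (cb2 T u v)) ∂(gI ι) := by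
  unfold W2
  rw [← mul_assoc, mul_one_div_cancel hy.ne', one_mul, Real.exp_log (int_cb2_pos hF y T u)]

lemma exp_Ps (hF : Lip F) (hx : 0 < x) (hy : 0 < y) :
    Real.exp (x * Ps x y T F) = ∫ u, Real.exp (x * W2 y T F u) ∂(gI ι) := by
  unfold Ps
  rw [← mul_assoc, mul_one_div_cancel hx.ne', one_mul, Real.exp_log]
  exact integral_exp_pos ((lip_W2 hF hy T).exp_eg x).integrable

lemma W2_add_const (hF : Lip F) (hy : 0 < y) (c : ℝ) (u : ι → ℝ) :
    W2 y T (fun z => F z + c) u = W2 y T F u + c := by
  unfold W2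
  have e : ∀ v, Real.exp (y * (F (cb2 T u v) + c)) =
      Real.exp (y * F (cb2 T u v)) * Real.exp (y * c) := by
    intro v
    rw [← Real.exp_add, mul_add]
  simp only [e]
  rw [integral_mul_const, Real.log_mul (int_cb2_pos hF y T u).ne' (Real.exp_pos _).ne',
    Real.log_exp]
  field_simp

lemma Ps_add_const (hF : Lip F) (hx : 0 < x) (hy : 0 < y) (c : ℝ) :
    Ps x y T (fun z => F z + c) = Ps x y T F + c := by
  have e : ∀ u, Real.exp (x * W2 y T (fun z => F z + c) u) =
      Real.exp (x * W2 y T F u) * Real.exp (x * c) := by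
    intro u
    rw [W2_add_const hF hy, ← Real.exp_add, mul_add]
  have h1 := (lip_W2 hF hy T).exp_eg x
  unfold Ps
  simp only [e]
  rw [integral_mul_const, Real.log_mul (integral_exp_pos h1.integrable).ne' (Real.exp_pos _).ne',
    Real.log_exp]
  field_simp

end gen

variable {N : ℕ} {β T x y : ℝ}

lemma phi_cb2 (T : ℝ) (u v : Ix N → ℝ) : phi (cb2 T u v) = cb2 T (phi u) (phi v) := by
  funext p
  simp only [phi, cb2]
  ring

lemma trace_cb2 (T : ℝ) (u v : Ix N → ℝ) :
    (Wm N (cb2 T u v)).trace = √(1 - T) * (Wm N u).trace + √T * (Wm N v).trace := by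
  unfold Matrix.trace Wm cb2
  rw [Finset.mul_sum, Finset.mul_sum, ← Finset.sum_add_distrib]
  refine Finset.sum_congr rfl fun i _ => ?_
  simp only [Matrix.diag_apply, Matrix.of_apply]
  ring

/-- A function which is invariant under the reflection, against the exponential of an odd one. -/
lemma sym_le {f t : (Ix N → ℝ) → ℝ} (hf : Measurable f) (ht : Measurable t)
    (h0 : ∀ z, 0 ≤ f z) (h1 : ∀ z, f (fl z) = f z) (h2 : ∀ z, t (fl z) = -t z)
    (hi : Integrable (fun z => f z * Real.exp (t z)) (gI (Ix N))) :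
    ∫ z, f z ∂(gI (Ix N)) ≤ ∫ z, f z * Real.exp (t z) ∂(gI (Ix N)) := by
  have hi' : Integrable (fun z => f z * Real.exp (-t z)) (gI (Ix N)) := by
    have := (mp_fl (N := N)).integrable_comp_of_integrable hi
    refine this.congr (Eventually.of_forall fun z => ?_)
    simp only [Function.comp, h1, h2]
  have he : ∫ z, f z * Real.exp (-t z) ∂(gI (Ix N)) = ∫ z, f z * Real.exp (t z) ∂(gI (Ix N)) := by
    have hm : Measurable fun z => f z * Real.exp (t z) := hf.mul ht.exp
    conv_rhs => rw [← (mp_fl (N := N)).map_eq]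
    rw [integral_map (mp_fl (N := N)).measurable.aemeasurable hm.aestronglyMeasurable]
    refine integral_congr_ae (Eventually.of_forall fun z => ?_)
    simp only [h1, h2]
  have hpt : ∀ z, f z ≤ 1 / 2 * (f z * Real.exp (t z) + f z * Real.exp (-t z)) := by
    intro z
    have a1 := Real.add_one_le_exp (t z)
    have a2 := Real.add_one_le_exp (-t z)
    have a3 : f z * 2 ≤ f z * (Real.exp (t z) + Real.exp (-t z)) :=
      mul_le_mul_of_nonneg_left (by linarith) (h0 z)
    linarith
  have h3 : ∫ z, f z ∂(gI (Ix N)) ≤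
      ∫ z, 1 / 2 * (f z * Real.exp (t z) + f z * Real.exp (-t z)) ∂(gI (Ix N)) :=
    integral_mono_of_nonneg (Eventually.of_forall h0) ((hi.add hi').const_mul _)
      (Eventually.of_forall hpt)
  refine h3.trans (le_of_eq ?_)
  rw [integral_const_mul, integral_add hi hi', he]
  ring

lemma fl_cb2 (T : ℝ) (u v : Ix N → ℝ) : fl (cb2 T u v) = cb2 T (fl u) (fl v) := by
  funext p
  simp only [fl, cb2]
  split_ifs <;> ring

lemma lip_F0 (β : ℝ) : Lip (F0 (N := N) β) := by
  have h := (lip_Ft β N).add (Lip.const (N * Real.log 2))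
  have e : (fun z => Ft β N z + N * Real.log 2) = F0 (N := N) β := by
    funext z
    exact (F0_eq_Ft β z).symm
  rwa [e] at h

lemma lip_comp_phi {G : (Pair N → ℝ) → ℝ} (hG : Lip G) : Lip fun z : Ix N → ℝ => G (phi z) := by
  obtain ⟨L, hL, h⟩ := hG
  refine ⟨L * (2 / √2), by positivity, fun a b => (h _ _).trans ?_⟩
  have h1 : ‖phi a - phi b‖ ≤ 2 / √2 * ‖a - b‖ := by
    refine (pi_norm_le_iff_of_nonneg (by positivity)).2 fun p => ?_
    have e : (phi a - phi b) p = ((a - b) p.1 + (a - b) (p.1.2, p.1.1)) / √2 := by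
      simp only [phi, Pi.sub_apply]
      ring
    rw [e, norm_div, Real.norm_of_nonneg (Real.sqrt_nonneg 2)]
    have h2 := norm_le_pi_norm (a - b) p.1
    have h3 := norm_le_pi_norm (a - b) (p.1.2, p.1.1)
    have h4 := norm_add_le ((a - b) p.1) ((a - b) (p.1.2, p.1.1))
    rw [div_mul_eq_mul_div]
    refine div_le_div_of_nonneg_right ?_ (Real.sqrt_nonneg 2)
    linarith
  calc L * ‖phi a - phi b‖ ≤ L * (2 / √2 * ‖a - b‖) := mul_le_mul_of_nonneg_left h1 hL
    _ = _ := by ring

/-- the functional on the pairs from the one on the full matrix -/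
lemma Ps_phi {G : (Pair N → ℝ) → ℝ} (hG : Lip G) (x y T : ℝ) :
    Ps x y T G = Ps x y T fun z : Ix N → ℝ => G (phi z) := by
  have e1 : ∀ u : Ix N → ℝ, W2 y T (fun z : Ix N → ℝ => G (phi z)) u = W2 y T G (phi u) := by
    intro u
    unfold W2
    congr 2
    have h := integral_disorder (N := N) (G := fun v => Real.exp (y * G (cb2 T (phi u) v)))
      ((lip_cb2 hG T (phi u)).measurable.const_mul y).exp
    simp only [← phi_cb2] at h
    exact h.symm
  unfold Ps
  simp only [e1]
  congr 2
  exact integral_disorder (N := N) (G := fun u => Real.exp (x * W2 y T G u))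
    ((measurable_W2 hG.measurable y T).const_mul x).exp

/-- the diagonal increases the moments -/
theorem Ps_free_le_F0 (hN : 0 < N) (hx : 0 < x) (hy : 0 < y) :
    Ps x y T (freeEnergy N β) ≤ Ps x y T (F0 (N := N) β) := by
  rw [Ps_phi (lip_free N β)]
  set G : (Ix N → ℝ) → ℝ := fun z => freeEnergy N β (phi z) with hG
  have hGl : Lip G := lip_comp_phi (lip_free N β)
  have hF0 : ∀ z, F0 β z = G z + β / 2 * (Wm N z).trace := by
    intro z
    have e1 := free_phi hN β z
    simp only [hG]
    linarith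
  have hGfl : ∀ z, G (fl z) = G z := fun z => by simp only [hG, phi_fl]
  have mtr : Measurable fun z : Ix N → ℝ => (Wm N z).trace := by
    unfold Matrix.trace Wm
    simp only [Matrix.diag_apply, Matrix.of_apply]
    fun_prop
  have hlF := lip_F0 (N := N) β
  -- the inner moment
  have hin : ∀ u, W2 y T G u + β / 2 * (√(1 - T) * (Wm N u).trace) ≤ W2 y T (F0 (N := N) β) u := by
    intro u
    have hcv : ∀ v, Real.exp (y * F0 β (cb2 T u v)) =
        Real.exp (y * (β / 2 * (√(1 - T) * (Wm N u).trace))) *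
        (Real.exp (y * G (cb2 T u v)) * Real.exp (y * (β / 2 * (√T * (Wm N v).trace)))) := by
      intro v
      rw [hF0, trace_cb2, ← Real.exp_add, ← Real.exp_add]
      congr 1
      ring
    have hint := int_cb2 hlF y T u
    have hint2 : Integrable (fun v => Real.exp (y * G (cb2 T u v)) *
        Real.exp (y * (β / 2 * (√T * (Wm N v).trace)))) (gI (Ix N)) := by
      have := hint.const_mul (Real.exp (y * (β / 2 * (√(1 - T) * (Wm N u).trace))))⁻¹
      refine this.congr (Eventually.of_forall fun v => ?_)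
      simp only [hcv]
      rw [inv_mul_cancel_left₀ (Real.exp_pos _).ne']
    have h1 := sym_le (f := fun v => Real.exp (y * G (cb2 T u v)))
      (t := fun v => y * (β / 2 * (√T * (Wm N v).trace)))
      ((lip_cb2 hGl T u).measurable.const_mul y).exp
      (((mtr.const_mul _).const_mul _).const_mul _)
      (fun v => (Real.exp_pos _).le)
      (fun v => by
        have : G (cb2 T u (fl v)) = G (cb2 T u v) := by
          simp only [hG, phi_cb2, phi_fl]
        simp only [this])
      (fun v => by simp only [trace_fl]; ring) hint2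
    have h2 : ∫ v, Real.exp (y * F0 β (cb2 T u v)) ∂(gI (Ix N)) =
        Real.exp (y * (β / 2 * (√(1 - T) * (Wm N u).trace))) *
        ∫ v, Real.exp (y * G (cb2 T u v)) * Real.exp (y * (β / 2 * (√T * (Wm N v).trace)))
          ∂(gI (Ix N)) := by
      simp only [hcv]
      rw [integral_const_mul]
    have h3 : Real.log (Real.exp (y * (β / 2 * (√(1 - T) * (Wm N u).trace))) *
        ∫ v, Real.exp (y * G (cb2 T u v)) ∂(gI (Ix N))) ≤
        Real.log (∫ v, Real.exp (y * F0 β (cb2 T u v)) ∂(gI (Ix N))) := by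
      refine Real.log_le_log (mul_pos (Real.exp_pos _) (int_cb2_pos hGl y T u)) ?_
      rw [h2]
      exact mul_le_mul_of_nonneg_left h1 (Real.exp_pos _).le
    rw [Real.log_mul (Real.exp_pos _).ne' (int_cb2_pos hGl y T u).ne', Real.log_exp] at h3
    unfold W2
    have h4 := mul_le_mul_of_nonneg_left h3 (show 0 ≤ 1 / y by positivity)
    refine le_trans (le_of_eq ?_) h4
    field_simp
    ring
  -- the outer moment
  have hW : ∀ u, W2 y T G (fl u) = W2 y T G u := by
    intro u
    unfold W2
    have : ∀ v, G (cb2 T (fl u) v) = G (cb2 T u v) := fun v => by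
      simp only [hG, phi_cb2, phi_fl]
    simp only [this]
  have hlG := lip_W2 hGl hy T
  have hlF2 := lip_W2 hlF hy T
  have hpt : ∀ u, Real.exp (x * W2 y T G u) * Real.exp (x * (β / 2 * (√(1 - T) *
      (Wm N u).trace))) ≤ Real.exp (x * W2 y T (F0 (N := N) β) u) := by
    intro u
    rw [← Real.exp_add, ← mul_add]
    exact Real.exp_le_exp.2 (mul_le_mul_of_nonneg_left (hin u) hx.le)
  have hiF := (hlF2.exp_eg x).integrable
  have mG : Measurable fun u => Real.exp (x * W2 y T G u) := (hlG.measurable.const_mul x).exp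
  have mt : Measurable fun u : Ix N → ℝ => x * (β / 2 * (√(1 - T) * (Wm N u).trace)) :=
    ((mtr.const_mul _).const_mul _).const_mul _
  have hi : Integrable (fun u => Real.exp (x * W2 y T G u) * Real.exp (x * (β / 2 * (√(1 - T) *
      (Wm N u).trace)))) (gI (Ix N)) := by
    refine hiF.mono' (mG.mul mt.exp).aestronglyMeasurable (Eventually.of_forall fun u => ?_)
    rw [Real.norm_of_nonneg (by positivity)]
    exact hpt u
  have h1 := sym_le (f := fun u => Real.exp (x * W2 y T G u))
    (t := fun u => x * (β / 2 * (√(1 - T) * (Wm N u).trace))) mG mt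
    (fun u => (Real.exp_pos _).le) (fun u => by simp only [hW])
    (fun u => by simp only [trace_fl]; ring) hi
  have h2 : ∫ u, Real.exp (x * W2 y T G u) ∂(gI (Ix N)) ≤
      ∫ u, Real.exp (x * W2 y T (F0 (N := N) β) u) ∂(gI (Ix N)) :=
    h1.trans (integral_mono hi hiF hpt)
  unfold Ps
  refine mul_le_mul_of_nonneg_left (Real.log_le_log ?_ h2) (by positivity)
  exact integral_exp_pos (hlG.exp_eg x).integrable

/-- **Guerra's bound with the disorder split over two levels, for the free energy.** -/
theorem ps_free_le (hN : 0 < N) {K L : ℕ} (hL : 2 ≤ L) (hLK : L ≤ K) {m q : ℕ → ℝ}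
    (hm : Exponents K m) (hq : Path K q) (hq0 : q 0 = 0) (hβ : 0 ≤ β) (hT : 0 ≤ T)
    (hT1 : T < 1) (hm1 : 0 < m 1) (hmL : 0 < m L) :
    Ps (m 1) (m L) T (freeEnergy N β) ≤ N * (Real.log 2 + PSK β K m q + β ^ 2 / 4 *
      (T / (1 - T) * ∑ l ∈ Finset.range L, (m (l + 1) - m l) * q l ^ 2)) := by
  have h1 := Ps_free_le_F0 (N := N) (β := β) (T := T) hN hm1 hmL
  have h2 : Ps (m 1) (m L) T (F0 (N := N) β) =
      Ps (m 1) (m L) T (Ft β N) + N * Real.log 2 := by
    have e : F0 (N := N) β = fun z => Ft β N z + N * Real.log 2 := by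
      funext z
      exact F0_eq_Ft β z
    rw [e, Ps_add_const (lip_Ft β N) hm1 hmL]
  have h3 := gueT hN hL hLK hm hq hq0 hβ hT hT1
  linarith

end Vale.Agent.P146.H346
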