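import Vale.Agent.P146.Bdl.B30

/-!
# P146: Guerra's bound with the disorder split over two levels

The share `1 - T` of the disorder of the SK model is put at the level `1` (exponent `m 1`), the
share `T` at the level `L` (exponent `m L`). The path of the fields is the path `q` of the
comparison; the only change of the constant is `q l ^ 2 / (1 - T)` for the levels `l < L`.

`gueT : (1 / m 1) log E₁ (E₂ Z ^ (m L)) ^ (m 1 / m L) ≤
  N (PSK β K m q + β² / 4 * (T / (1 - T)) * ∑_{l < L} (m (l + 1) - m l) q l ^ 2)`.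
-/

open MeasureTheory ProbabilityTheory Filter Topology

namespace Vale.Agent.P146.H346

set_option linter.unusedSectionVars false

open Vale.Agent.P157 (spin)
open Vale.Agent.P157.Lv
open Vale.Agent.P157.Lv.Sy
open Vale.Agent.P157.Par (Path Exponents spinPart topN lw incr)
open Vale.Agent.P146.Sk (Ix Wm qf Ft PSK)
open Vale.Agent.P146.Sk.Gen (GI gz r0)
open Vale.Agent.P146.Ub (pot_id sum_incr' incr_nonneg' spin_sq' alg_sq lip_Ft)

variable {N K : ℕ}

/-- The two shares of the disorder. -/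
abbrev I2 (N : ℕ) : Type := Ix N ⊕ Ix N

/-- The levels: the first share is at the level one, the second at the level `L`. -/
def tl (L : ℕ) : GI (I2 N) N K → ℕ
  | Sum.inl (Sum.inl _) => 1
  | Sum.inl (Sum.inr _) => L
  | Sum.inr p => p.1

/-- The coefficients of the energy of the SK model. -/
noncomputable def ta (β T : ℝ) (x : Fin N → Bool) : GI (I2 N) N K → ℝ
  | Sum.inl (Sum.inl p) => β / √(2 * (N : ℝ)) * √(1 - T) * (spin x p.1 * spin x p.2)
  | Sum.inl (Sum.inr p) => β / √(2 * (N : ℝ)) * √T * (spin x p.1 * spin x p.2)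
  | Sum.inr _ => 0

/-- The coefficients of the fields. -/
noncomputable def tb (β : ℝ) (q : ℕ → ℝ) (x : Fin N → Bool) : GI (I2 N) N K → ℝ
  | Sum.inl _ => 0
  | Sum.inr p => β * √(incr q p.1) * spin x p.2

/-- The trivial system. -/
noncomputable def tS (N K L : ℕ) (m : ℕ → ℝ) : Sy (GI (I2 N) N K) (Fin N → Bool) :=
  ⟨tl L, K, m, fun _ _ => -(N * Real.log 2)⟩

lemma tS_regD {L : ℕ} (hK : 1 ≤ K) (hL : L ≤ K) {m : ℕ → ℝ} (hm : Exponents K m) :
    (tS N K L m).RegD (fun _ _ _ => 0) where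
  m0 := hm.1
  mK := hm.2.1
  mono := fun l hl => (hm.2.2 l hl).le
  pos := by
    have := hm.2.2 0 (Nat.zero_le _)
    rw [hm.1] at this
    exact this
  lev := by
    rintro ((e | e) | p)
    · exact hK
    · exact hL
    · exact Nat.le_of_lt_succ p.1.2
  lip := fun x => Lip.const _
  pd := fun e x => PD.const _
  md := fun e x => measurable_const
  bd := ⟨0, fun e z x => by simp⟩

lemma sep_t (β T : ℝ) (q : ℕ → ℝ) :
    Sep (ι := GI (I2 N) N K) (fun _ _ _ => 0) (ta β T) (tb β q) where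
  disj := by
    rintro (e | p) x x'
    · exact mul_zero _
    · exact zero_mul _
  indep := fun e x _ z y => rfl

/-- Summation over the coordinates. -/
lemma sum_GI2 (f : GI (I2 N) N K → ℝ) : ∑ e, f e =
    (∑ p : Ix N, f (Sum.inl (Sum.inl p))) + (∑ p : Ix N, f (Sum.inl (Sum.inr p))) +
      ∑ l ∈ Finset.range (K + 1), ∑ i : Fin N, f (gz l i) := by
  rw [Fintype.sum_sum_type, Fintype.sum_sum_type]
  congr 1
  rw [Fintype.sum_prod_type, Finset.sum_range (fun l => ∑ i : Fin N, f (gz l i))]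
  refine Finset.sum_congr rfl fun l _ => Finset.sum_congr rfl fun i _ => ?_
  unfold gz
  rw [Fin.ofNat_val_eq_self]

/-- The disorder of the SK model from the two shares. -/
noncomputable def cmb (T : ℝ) (z : I2 N → ℝ) : Ix N → ℝ := fun p =>
  √(1 - T) * z (Sum.inl p) + √T * z (Sum.inr p)

lemma lin_ta (β T : ℝ) (x : Fin N → Bool) (z : GI (I2 N) N K → ℝ) :
    lin (ta β T x) z = β / 2 * qf (Wm N (cmb T (r0 z))) (spin x) := by
  unfold lin
  rw [sum_GI2]
  have h0 : ∀ l ∈ Finset.range (K + 1),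
      ∑ i : Fin N, ta β T x (gz l i : GI (I2 N) N K) * z (gz l i) = 0 :=
    fun l _ => Finset.sum_eq_zero fun i _ => by
      show 0 * z (gz l i) = 0
      rw [zero_mul]
  rw [Finset.sum_eq_zero h0, add_zero, Sk.qf_Wm, Fintype.sum_prod_type, Fintype.sum_prod_type]
  simp only [ta, Finset.mul_sum, r0, cmb]
  rw [← Finset.sum_add_distrib]
  refine Finset.sum_congr rfl fun i _ => ?_
  rw [← Finset.sum_add_distrib]
  refine Finset.sum_congr rfl fun j _ => ?_
  ring

lemma lin_tb (β : ℝ) (q : ℕ → ℝ) (x : Fin N → Bool) (z : GI (I2 N) N K → ℝ) :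
    lin (tb β q x) z =
      ∑ l ∈ Finset.range (K + 1), β * √(incr q l) * ∑ i, z (gz l i) * spin x i := by
  unfold lin
  rw [sum_GI2]
  have h0 : ∀ p ∈ (Finset.univ : Finset (Ix N)),
      tb (K := K) β q x (Sum.inl (Sum.inl p)) * z (Sum.inl (Sum.inl p)) = 0 := fun p _ => by
    show 0 * _ = (0 : ℝ)
    rw [zero_mul]
  have h0' : ∀ p ∈ (Finset.univ : Finset (Ix N)),
      tb (K := K) β q x (Sum.inl (Sum.inr p)) * z (Sum.inl (Sum.inr p)) = 0 := fun p _ => by
    show 0 * _ = (0 : ℝ)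
    rw [zero_mul]
  rw [Finset.sum_eq_zero h0, Finset.sum_eq_zero h0', zero_add, zero_add]
  refine Finset.sum_congr rfl fun l hl => ?_
  rw [Finset.mul_sum]
  refine Finset.sum_congr rfl fun i _ => ?_
  have h1 : ((Fin.ofNat (K + 1) l : Fin (K + 1)) : ℕ) = l := by
    simp only [Fin.ofNat, Nat.mod_eq_of_lt (Finset.mem_range.1 hl)]
  show β * √(incr q ((Fin.ofNat (K + 1) l : Fin (K + 1)) : ℕ)) * spin x i * z (gz l i) = _
  rw [h1]
  ring

/-- The variance of the energy of the SK model. -/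
lemma sum_ta_sq (hN : 0 < N) (β : ℝ) {T : ℝ} (hT : 0 ≤ T) (hT1 : T ≤ 1) (x : Fin N → Bool) :
    ∑ e : GI (I2 N) N K, ta β T x e ^ 2 = β ^ 2 / 2 * N := by
  have hN' : (0 : ℝ) < N := by exact_mod_cast hN
  rw [sum_GI2]
  have h0 : ∀ l ∈ Finset.range (K + 1), ∑ i : Fin N, (ta β T x (gz l i : GI (I2 N) N K)) ^ 2 = 0 :=
    fun l _ => Finset.sum_eq_zero fun i _ => by
      show (0 : ℝ) ^ 2 = 0
      norm_num
  rw [Finset.sum_eq_zero h0, add_zero]
  have h1 : ∀ p : Ix N, ta (K := K) β T x (Sum.inl (Sum.inl p)) ^ 2 =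
      (1 - T) * (β ^ 2 / (2 * N)) := by
    intro p
    show (β / √(2 * (N : ℝ)) * √(1 - T) * (spin x p.1 * spin x p.2)) ^ 2 = _
    rw [mul_pow, mul_pow, mul_pow, spin_sq', spin_sq', div_pow, Real.sq_sqrt (by positivity),
      Real.sq_sqrt (by linarith)]
    ring
  have h2 : ∀ p : Ix N, ta (K := K) β T x (Sum.inl (Sum.inr p)) ^ 2 =
      T * (β ^ 2 / (2 * N)) := by
    intro p
    show (β / √(2 * (N : ℝ)) * √T * (spin x p.1 * spin x p.2)) ^ 2 = _
    rw [mul_pow, mul_pow, mul_pow, spin_sq', spin_sq', div_pow, Real.sq_sqrt (by positivity),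
      Real.sq_sqrt (by linarith)]
    ring
  simp only [h1, h2, Finset.sum_const, Finset.card_univ, Fintype.card_prod, Fintype.card_fin,
    nsmul_eq_mul]
  push_cast
  field_simp
  ring

lemma tb_gz (β : ℝ) (q : ℕ → ℝ) (x : Fin N → Bool) {l : ℕ} (hl : l ≤ K) (i : Fin N) :
    tb β q x (gz l i : GI (I2 N) N K) = β * √(incr q l) * spin x i := by
  have h1 : ((Fin.ofNat (K + 1) l : Fin (K + 1)) : ℕ) = l := by
    simp only [Fin.ofNat, Nat.mod_eq_of_lt (Nat.lt_succ_of_le hl)]
  show β * √(incr q ((Fin.ofNat (K + 1) l : Fin (K + 1)) : ℕ)) * spin x i = _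
  rw [h1]

/-- The variance of the fields. -/
lemma sum_tb_sq (β : ℝ) {q : ℕ → ℝ} (hq : Path K q) (x : Fin N → Bool) :
    ∑ e : GI (I2 N) N K, tb β q x e ^ 2 = β ^ 2 * N * q K := by
  rw [sum_GI2]
  have h0 : ∀ p ∈ (Finset.univ : Finset (Ix N)),
      tb (K := K) β q x (Sum.inl (Sum.inl p)) ^ 2 = 0 := fun p _ => by
    show (0 : ℝ) ^ 2 = 0
    norm_num
  have h0' : ∀ p ∈ (Finset.univ : Finset (Ix N)),
      tb (K := K) β q x (Sum.inl (Sum.inr p)) ^ 2 = 0 := fun p _ => by
    show (0 : ℝ) ^ 2 = 0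
    norm_num
  rw [Finset.sum_eq_zero h0, Finset.sum_eq_zero h0', zero_add, zero_add, ← sum_incr' q K,
    Finset.mul_sum]
  refine Finset.sum_congr rfl fun l hl => ?_
  have hl' : l ≤ K := Nat.le_of_lt_succ (Finset.mem_range.1 hl)
  have h1 : ∀ i : Fin N, tb β q x (gz l i : GI (I2 N) N K) ^ 2 = β ^ 2 * incr q l := by
    intro i
    rw [tb_gz β q x hl' i, mul_pow, mul_pow, spin_sq', Real.sq_sqrt (incr_nonneg' hq hl')]
    ring
  simp only [h1, Finset.sum_const, Finset.card_univ, Fintype.card_fin, nsmul_eq_mul]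
  ring

/-- The share of the disorder which is present at the level `l`. -/
noncomputable def shl (T : ℝ) (L l : ℕ) : ℝ := if l < L then 1 - T else 1

lemma shl_pos {T : ℝ} (hT1 : T < 1) (L l : ℕ) : 0 < shl T L l := by
  unfold shl
  split_ifs <;> linarith

/-- One level of the bracket. -/
lemma level_ge (hN : 0 < N) {R : Sy (GI (I2 N) N K) (Fin N → Bool)} (hR : R.Reg) {L : ℕ}
    (hL : 1 ≤ L) (hlev : R.lev = tl L) (hRK : R.K = K) (β : ℝ) {T : ℝ} (hT : 0 ≤ T) (hT1 : T < 1)
    {q : ℕ → ℝ} (hq : Path K q) (hq0 : q 0 = 0) {l : ℕ} (hl : l ≤ K) :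
    -(β ^ 2 / 2 * N * (q l ^ 2 / shl T L l)) ≤ ∑ e, if R.lev e ≤ l then
      (R.Ex (fun z _ => R.T l (fun _ x => 1 * ta β T x e) z ^ 2) -
        R.Ex (fun z _ => R.T l (fun _ x => 1 * tb β q x e) z ^ 2)) else 0 := by
  have hN' : (0 : ℝ) < N := by exact_mod_cast hN
  have hlK : l ≤ R.K := by omega
  rw [sum_GI2, hlev]
  have hgz : ∀ j ≤ K, ∀ i : Fin N, tl L (gz j i : GI (I2 N) N K) = j := by
    intro j hj i
    show ((Fin.ofNat (K + 1) j : Fin (K + 1)) : ℕ) = j
    simp only [Fin.ofNat, Nat.mod_eq_of_lt (Nat.lt_succ_of_le hj)]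
  -- the magnetizations
  set B : ℝ := ∑ i : Fin N, R.Ex (fun z _ => R.T l (fun _ x => spin x i) z ^ 2) with hB
  have hf : ∀ j ∈ Finset.range (K + 1), (∑ i : Fin N, if tl L (gz j i : GI (I2 N) N K) ≤ l then
      (R.Ex (fun z _ => R.T l (fun _ x => 1 * ta (K := K) β T x (gz j i)) z ^ 2) -
        R.Ex (fun z _ => R.T l (fun _ x => 1 * tb (K := K) β q x (gz j i)) z ^ 2)) else 0) =
      if j ≤ l then -(β ^ 2 * incr q j * B) else 0 := by
    intro j hj
    have hj' : j ≤ K := Nat.le_of_lt_succ (Finset.mem_range.1 hj)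
    by_cases hjl : j ≤ l
    · rw [if_pos hjl, hB, Finset.mul_sum, ← Finset.sum_neg_distrib]
      refine Finset.sum_congr rfl fun i _ => ?_
      rw [if_pos (by rw [hgz j hj' i]; exact hjl)]
      have e1 : (fun (z : GI (I2 N) N K → ℝ) (_ : Fin N → Bool) =>
          R.T l (fun _ x => 1 * ta (K := K) β T x (gz j i)) z ^ 2) = fun _ _ => 0 := by
        funext z _
        have : R.T l (fun _ x => 1 * ta (K := K) β T x (gz j i)) z = 0 := by
          rw [← hR.T_const hlK 0 z]
          congr 1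
          funext z x
          show 1 * (0 : ℝ) = 0
          norm_num
        rw [this]
        norm_num
      have e2 : (fun (z : GI (I2 N) N K → ℝ) (_ : Fin N → Bool) =>
          R.T l (fun _ x => 1 * tb (K := K) β q x (gz j i)) z ^ 2) =
          fun z _ => β ^ 2 * incr q j * R.T l (fun _ x => spin x i) z ^ 2 := by
        funext z _
        have : R.T l (fun _ x => 1 * tb (K := K) β q x (gz j i)) z =
            β * √(incr q j) * R.T l (fun _ x => spin x i) z := by
          rw [← Sy.T_const_mul]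
          congr 1
          funext z x
          rw [tb_gz β q x hj' i, one_mul]
        rw [this, mul_pow, mul_pow, Real.sq_sqrt (incr_nonneg' hq hj')]
      rw [e1, e2, hR.Ex_const, Sy.Ex_const_mul]
      ring
    · rw [if_neg hjl]
      refine Finset.sum_eq_zero fun i _ => ?_
      rw [if_neg (by rw [hgz j hj' i]; exact hjl)]
  have hfil : (Finset.range (K + 1)).filter (fun j => j ≤ l) = Finset.range (l + 1) := by
    ext j
    simp only [Finset.mem_filter, Finset.mem_range]
    omega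
  have hsum : (∑ j ∈ Finset.range (K + 1), if j ≤ l then -(β ^ 2 * incr q j * B) else 0) =
      -(β ^ 2 * q l * B) := by
    rw [← Finset.sum_filter, hfil, Finset.sum_neg_distrib, ← Finset.sum_mul, ← Finset.mul_sum,
      sum_incr' q l]
  rw [Finset.sum_congr rfl hf, hsum]
  by_cases hl0 : l = 0
  · subst hl0
    rw [hq0]
    have h0 : ∀ p ∈ (Finset.univ : Finset (Ix N)),
        (if tl L (Sum.inl (Sum.inl p) : GI (I2 N) N K) ≤ 0 then
      (R.Ex (fun z _ => R.T 0 (fun _ x => 1 * ta (K := K) β T x (Sum.inl (Sum.inl p))) z ^ 2) -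
        R.Ex (fun z _ => R.T 0 (fun _ x => 1 * tb (K := K) β q x (Sum.inl (Sum.inl p))) z ^ 2))
        else 0) = 0 := by
      intro p _
      exact if_neg (by show ¬ (1 ≤ 0); omega)
    have h0' : ∀ p ∈ (Finset.univ : Finset (Ix N)),
        (if tl L (Sum.inl (Sum.inr p) : GI (I2 N) N K) ≤ 0 then
      (R.Ex (fun z _ => R.T 0 (fun _ x => 1 * ta (K := K) β T x (Sum.inl (Sum.inr p))) z ^ 2) -
        R.Ex (fun z _ => R.T 0 (fun _ x => 1 * tb (K := K) β q x (Sum.inl (Sum.inr p))) z ^ 2))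
        else 0) = 0 := by
      intro p _
      exact if_neg (by show ¬ (L ≤ 0); omega)
    rw [Finset.sum_eq_zero h0, Finset.sum_eq_zero h0']
    simp
  · have hl1 : 1 ≤ l := by omega
    -- the overlap part of one share
    set A : ℝ := ∑ p : Ix N, R.Ex (fun z _ => R.T l (fun _ x => spin x p.1 * spin x p.2) z ^ 2)
      with hA
    have htb : ∀ e : I2 N, (fun (z : GI (I2 N) N K → ℝ) (_ : Fin N → Bool) =>
        R.T l (fun _ x => 1 * tb (K := K) β q x (Sum.inl e)) z ^ 2) = fun _ _ => 0 := by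
      intro e
      funext z _
      have : R.T l (fun _ x => 1 * tb (K := K) β q x (Sum.inl e)) z = 0 := by
        rw [← hR.T_const hlK 0 z]
        congr 1
        funext z x
        show 1 * (0 : ℝ) = 0
        norm_num
      rw [this]
      norm_num
    have h1 : ∑ p : Ix N, (if tl L (Sum.inl (Sum.inl p) : GI (I2 N) N K) ≤ l then
      (R.Ex (fun z _ => R.T l (fun _ x => 1 * ta (K := K) β T x (Sum.inl (Sum.inl p))) z ^ 2) -
        R.Ex (fun z _ => R.T l (fun _ x => 1 * tb (K := K) β q x (Sum.inl (Sum.inl p))) z ^ 2))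
        else 0) = (1 - T) * (β ^ 2 / (2 * N)) * A := by
      rw [hA, Finset.mul_sum]
      refine Finset.sum_congr rfl fun p _ => ?_
      rw [if_pos (by show 1 ≤ l; exact hl1), htb, hR.Ex_const, sub_zero, ← Sy.Ex_const_mul]
      congr 1
      funext z _
      have : R.T l (fun _ x => 1 * ta (K := K) β T x (Sum.inl (Sum.inl p))) z =
          β / √(2 * (N : ℝ)) * √(1 - T) * R.T l (fun _ x => spin x p.1 * spin x p.2) z := by
        rw [← Sy.T_const_mul]
        congr 1
        funext z x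
        show 1 * (β / √(2 * (N : ℝ)) * √(1 - T) * (spin x p.1 * spin x p.2)) = _
        rw [one_mul]
      rw [this, mul_pow, mul_pow, div_pow, Real.sq_sqrt (by positivity),
        Real.sq_sqrt (by linarith)]
      ring
    have h2 : ∑ p : Ix N, (if tl L (Sum.inl (Sum.inr p) : GI (I2 N) N K) ≤ l then
      (R.Ex (fun z _ => R.T l (fun _ x => 1 * ta (K := K) β T x (Sum.inl (Sum.inr p))) z ^ 2) -
        R.Ex (fun z _ => R.T l (fun _ x => 1 * tb (K := K) β q x (Sum.inl (Sum.inr p))) z ^ 2))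
        else 0) = (if L ≤ l then T else 0) * (β ^ 2 / (2 * N)) * A := by
      rw [hA, Finset.mul_sum]
      refine Finset.sum_congr rfl fun p _ => ?_
      have hlv : (tl L (Sum.inl (Sum.inr p) : GI (I2 N) N K) ≤ l) ↔ L ≤ l := Iff.rfl
      by_cases hLl : L ≤ l
      · rw [if_pos (hlv.2 hLl), if_pos hLl, htb, hR.Ex_const, sub_zero, ← Sy.Ex_const_mul]
        congr 1
        funext z _
        have : R.T l (fun _ x => 1 * ta (K := K) β T x (Sum.inl (Sum.inr p))) z =
            β / √(2 * (N : ℝ)) * √T * R.T l (fun _ x => spin x p.1 * spin x p.2) z := by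
          rw [← Sy.T_const_mul]
          congr 1
          funext z x
          show 1 * (β / √(2 * (N : ℝ)) * √T * (spin x p.1 * spin x p.2)) = _
          rw [one_mul]
        rw [this, mul_pow, mul_pow, div_pow, Real.sq_sqrt (by positivity), Real.sq_sqrt hT]
        ring
      · rw [if_neg (fun h => hLl (hlv.1 h)), if_neg hLl]
        ring
    rw [h1, h2]
    have hc : (1 - T) * (β ^ 2 / (2 * N)) * A + (if L ≤ l then T else 0) * (β ^ 2 / (2 * N)) * A =
        shl T L l * (β ^ 2 / (2 * N)) * A := by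
      unfold shl
      by_cases hLl : L ≤ l
      · rw [if_pos hLl, if_neg (by omega)]
        ring
      · rw [if_neg hLl, if_pos (by omega)]
        ring
    rw [hc]
    set s : ℝ := shl T L l with hs
    have hs0 : 0 < s := shl_pos hT1 L l
    have hNs : ∀ i : Fin N, EG fun z => R.T l (fun _ x => spin x i) z ^ 2 := fun i =>
      (hR.eg_T hlK (Nh.snd fun x => spin x i)).pow 2
    have hNp : ∀ p : Ix N, EG fun z => R.T l (fun _ x => spin x p.1 * spin x p.2) z ^ 2 := fun p =>
      (hR.eg_T hlK (Nh.snd fun x => spin x p.1 * spin x p.2)).pow 2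
    have h3 : s * (β ^ 2 / (2 * N)) * A - β ^ 2 * q l * B =
        R.Ex (fun z _ => s * (β ^ 2 / (2 * N)) * (∑ p : Ix N,
          R.T l (fun _ x => spin x p.1 * spin x p.2) z ^ 2) -
          β ^ 2 * q l * ∑ i : Fin N, R.T l (fun _ x => spin x i) z ^ 2) := by
      rw [hR.Ex_sub (Nh.const_mul _ (Nh.fst (EG.sum _ fun p _ => hNp p)))
        (Nh.const_mul _ (Nh.fst (EG.sum _ fun i _ => hNs i))), Sy.Ex_const_mul, Sy.Ex_const_mul,
        hR.Ex_sum _ (fun p _ => Nh.fst (hNp p)), hR.Ex_sum _ (fun i _ => Nh.fst (hNs i))]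
    have h4 : -(β ^ 2 / 2 * N * (q l ^ 2 / s)) ≤ R.Ex (fun z _ => s * (β ^ 2 / (2 * N)) *
        (∑ p : Ix N, R.T l (fun _ x => spin x p.1 * spin x p.2) z ^ 2) -
          β ^ 2 * q l * ∑ i : Fin N, R.T l (fun _ x => spin x i) z ^ 2) := by
      rw [← hR.Ex_const (-(β ^ 2 / 2 * N * (q l ^ 2 / s)))]
      refine hR.Ex_mono (Nh.snd fun _ => _)
        (Nh.sub (Nh.const_mul _ (Nh.fst (EG.sum _ fun p _ => hNp p)))
        (Nh.const_mul _ (Nh.fst (EG.sum _ fun i _ => hNs i)))) fun z _ => ?_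
      have h4 := alg_sq (w := fun x => R.pr l z x) (fun x => hR.pr_nonneg hlK z x)
        (hR.sum_pr hlK z) (fun x => spin x) (N * (q l / s))
      have h5 : ∀ i : Fin N, R.T l (fun _ x => spin x i) z = ∑ x, R.pr l z x * spin x i :=
        fun i => hR.T_pr hlK (fun x => spin x i) z
      have h6 : ∀ p : Ix N, R.T l (fun _ x => spin x p.1 * spin x p.2) z =
          ∑ x, R.pr l z x * (spin x p.1 * spin x p.2) :=
        fun p => hR.T_pr hlK (fun x => spin x p.1 * spin x p.2) z
      simp only [h5, h6]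
      have h7 := mul_le_mul_of_nonneg_left h4
        (show 0 ≤ s * (β ^ 2 / (2 * N)) by (clear * - hN' hs0; positivity))
      have h8 : s * (β ^ 2 / (2 * N)) * (2 * (N * (q l / s)) *
          (∑ i, (∑ x, R.pr l z x * spin x i) ^ 2) - (N * (q l / s)) ^ 2) =
          β ^ 2 * q l * (∑ i, (∑ x, R.pr l z x * spin x i) ^ 2) -
          β ^ 2 / 2 * N * (q l ^ 2 / s) := by
        field_simp
      rw [h8] at h7
      linarith only [h7]
    linarith only [h3, h4]

/-- The bound of the bracket. -/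
lemma brk_le (hN : 0 < N) (hK : 1 ≤ K) {L : ℕ} (hL : 1 ≤ L) (hLK : L ≤ K) {m : ℕ → ℝ}
    (hm : Exponents K m) (β : ℝ) {T : ℝ} (hT : 0 ≤ T) (hT1 : T < 1) {q : ℕ → ℝ}
    (hq : Path K q) (hq0 : q 0 = 0) (θ : ℝ) :
    brk (tS N K L m) (fun x => x) (fun _ => 1) (fun _ => 0) (ta β T) (tb β q) θ ≤
      β ^ 2 / 2 * N - β ^ 2 * N * q K +
        ∑ l ∈ Finset.range (K + 1), (m (l + 1) - m l) *
          (β ^ 2 / 2 * N * (q l ^ 2 / shl T L l)) := by
  have hS := tS_regD (N := N) hK hLK hm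
  have hR := (regD_it (α := ta β T) (β := tb β q) hS pot_id θ).toReg
  unfold brk
  have e1 : (fun (z : GI (I2 N) N K → ℝ) (x : Fin N → Bool) => ((0 : ℝ) + 1 ^ 2) *
      (∑ e : GI (I2 N) N K, ta β T x e ^ 2 - ∑ e : GI (I2 N) N K, tb β q x e ^ 2)) =
      fun _ _ => β ^ 2 / 2 * N - β ^ 2 * N * q K := by
    funext z x
    rw [sum_ta_sq hN β hT hT1.le, sum_tb_sq β hq]
    ring
  simp only []
  rw [e1, hR.Ex_const]
  have h2 : ∑ l ∈ Finset.range (K + 1), (m (l + 1) - m l) *
      (-(β ^ 2 / 2 * N * (q l ^ 2 / shl T L l))) ≤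
      ∑ l ∈ Finset.range ((tS N K L m).K + 1), (tS N K L m).p l *
        ∑ e, if (tS N K L m).lev e ≤ l then
      (((tS N K L m).wH (it (tS N K L m).H (fun x => x) (ta β T) (tb β q) θ)).Ex (fun z _ =>
        ((tS N K L m).wH (it (tS N K L m).H (fun x => x) (ta β T) (tb β q) θ)).T l
          (fun _ x => 1 * ta β T x e) z ^ 2) -
        ((tS N K L m).wH (it (tS N K L m).H (fun x => x) (ta β T) (tb β q) θ)).Ex (fun z _ =>
        ((tS N K L m).wH (it (tS N K L m).H (fun x => x) (ta β T) (tb β q) θ)).T l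
          (fun _ x => 1 * tb β q x e) z ^ 2)) else 0 := by
    refine Finset.sum_le_sum fun l hl => ?_
    have hl' : l ≤ K := Nat.le_of_lt_succ (Finset.mem_range.1 hl)
    exact mul_le_mul_of_nonneg_left (level_ge hN hR hL rfl rfl β hT hT1 hq hq0 hl')
      (by linarith only [hm.2.2 l hl'])
  have h3 : ∑ l ∈ Finset.range (K + 1), (m (l + 1) - m l) *
      (-(β ^ 2 / 2 * N * (q l ^ 2 / shl T L l))) =
      -∑ l ∈ Finset.range (K + 1), (m (l + 1) - m l) *
        (β ^ 2 / 2 * N * (q l ^ 2 / shl T L l)) := by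
    rw [← Finset.sum_neg_distrib]
    exact Finset.sum_congr rfl fun l _ => by ring
  rw [h3] at h2
  linarith only [h2]

/-- The value at the end: the fields alone. -/
lemma fe_zero (hK : 1 ≤ K) {L : ℕ} (hLK : L ≤ K) {m : ℕ → ℝ} (hm : Exponents K m) {β : ℝ}
    (hβ : 0 ≤ β) (T : ℝ) {q : ℕ → ℝ} (hq : Path K q) :
    ((tS N K L m).wH (it (tS N K L m).H (fun x => x) (ta β T) (tb β q) 0)).fe =
      N * (spinPart K m (fun l => β ^ 2 * q l) + β ^ 2 * q K / 2) := by
  have hS := tS_regD (N := N) hK hLK hm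
  have hR := regD_it (α := ta β T) (β := tb β q) hS pot_id 0
  have key := fe_field (S := (tS N K L m).wH (it (tS N K L m).H (fun x => x) (ta β T)
    (tb β q) 0)) hR (φ := spin) (u := fun _ => -(N * Real.log 2)) (zc := gz)
    (s := fun l => β * √(incr q l)) ?_ ?_ ?_ ?_
  · rw [key]
    have h1 := Vale.Agent.P157.Par.topN_spin hm N (r := fun l =>
      ∑ j ∈ Finset.range (l + 1), (β * √(incr q j)) ^ 2)
    refine h1.trans ?_
    have h2 : ∀ l ≤ K, ∑ j ∈ Finset.range (l + 1), (β * √(incr q j)) ^ 2 = β ^ 2 * q l := by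
      intro l hl
      rw [← sum_incr' q l, Finset.mul_sum]
      refine Finset.sum_congr rfl fun j hj => ?_
      have hj' : j ≤ K := by
        have := Finset.mem_range.1 hj
        omega
      rw [mul_pow, Real.sq_sqrt (incr_nonneg' hq hj')]
    have h3 : spinPart K m (fun l => ∑ j ∈ Finset.range (l + 1), (β * √(incr q j)) ^ 2) =
        spinPart K m (fun l => β ^ 2 * q l) := by
      unfold spinPart
      rw [br_cascade_congr (m := m) (q := fun l => ∑ j ∈ Finset.range (l + 1),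
        (β * √(incr q j)) ^ 2) (q' := fun l => β ^ 2 * q l) h2]
      simp only [h2 0 (Nat.zero_le _), h2 K le_rfl]
    rw [h3, h2 K le_rfl]
  · intro l hl i
    have hl' : l ≤ K := hl
    show ((Fin.ofNat (K + 1) l : Fin (K + 1)) : ℕ) = l
    simp only [Fin.ofNat, Nat.mod_eq_of_lt (Nat.lt_succ_of_le hl')]
  · intro l hl i j hij
    exact (Prod.ext_iff.1 (Sum.inr_injective hij)).2
  · intro l hl
    positivity
  · intro z x
    show -(N * Real.log 2) + itU (ta β T) (tb β q) 0 z x = _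
    unfold itU
    rw [Real.sin_zero, Real.cos_zero, zero_mul, one_mul, zero_add, lin_tb]
    rfl

/-! ### the value at the beginning -/

/-- the disorder from two shares -/
noncomputable def cb2 {ι : Type} (T : ℝ) (u v : ι → ℝ) : ι → ℝ := fun p => √(1 - T) * u p + √T * v p

/-- the log-moment of order `y` over the share `T`, the share `1 - T` is frozen -/
noncomputable def W2 {ι : Type} [Fintype ι] (y T : ℝ) (F : (ι → ℝ) → ℝ) (u : ι → ℝ) : ℝ :=
  1 / y * Real.log (∫ v, Real.exp (y * F (cb2 T u v)) ∂(gI ι))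

/-- the log-moment of order `x` of the log-moment of order `y` over the share `T` -/
noncomputable def Ps {ι : Type} [Fintype ι] (x y T : ℝ) (F : (ι → ℝ) → ℝ) : ℝ :=
  1 / x * Real.log (∫ u, Real.exp (x * W2 y T F u) ∂(gI ι))

lemma mp_r0 {ι₀ : Type} [Fintype ι₀] : MeasurePreserving (r0 : (GI ι₀ N K → ℝ) → ι₀ → ℝ)
    (gI (GI ι₀ N K)) (gI ι₀) := by
  have h1 : MeasurePreserving (MeasurableEquiv.sumPiEquivProdPi fun _ : GI ι₀ N K => ℝ)
      (gI (GI ι₀ N K)) ((gI ι₀).prod (gI (Fin (K + 1) × Fin N))) :=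
    measurePreserving_sumPiEquivProdPi fun _ : GI ι₀ N K => gaussianReal 0 1
  exact measurePreserving_fst.comp h1

lemma mp_left {ι ι' : Type} [Fintype ι] [Fintype ι'] :
    MeasurePreserving (fun (z : ι ⊕ ι' → ℝ) (e : ι) => z (Sum.inl e))
    (gI (ι ⊕ ι')) (gI ι) := by
  have h1 : MeasurePreserving (MeasurableEquiv.sumPiEquivProdPi fun _ : ι ⊕ ι' => ℝ)
      (gI (ι ⊕ ι')) ((gI ι).prod (gI ι')) :=
    measurePreserving_sumPiEquivProdPi fun _ : ι ⊕ ι' => gaussianReal 0 1
  exact measurePreserving_fst.comp h1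

lemma mp_right {ι ι' : Type} [Fintype ι] [Fintype ι'] :
    MeasurePreserving (fun (z : ι ⊕ ι' → ℝ) (e : ι') => z (Sum.inr e))
    (gI (ι ⊕ ι')) (gI ι') := by
  have h1 : MeasurePreserving (MeasurableEquiv.sumPiEquivProdPi fun _ : ι ⊕ ι' => ℝ)
      (gI (ι ⊕ ι')) ((gI ι).prod (gI ι')) :=
    measurePreserving_sumPiEquivProdPi fun _ : ι ⊕ ι' => gaussianReal 0 1
  exact measurePreserving_snd.comp h1

/-- the coordinates of the first share -/
def r1 (z : GI (I2 N) N K → ℝ) : Ix N → ℝ := fun p => z (Sum.inl (Sum.inl p))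

/-- the coordinates of the second share -/
def r2 (z : GI (I2 N) N K → ℝ) : Ix N → ℝ := fun p => z (Sum.inl (Sum.inr p))

lemma mp_r1 : MeasurePreserving (r1 (N := N) (K := K)) (gI (GI (I2 N) N K)) (gI (Ix N)) :=
  (mp_left (ι := Ix N) (ι' := Ix N)).comp mp_r0

lemma mp_r2 : MeasurePreserving (r2 (N := N) (K := K)) (gI (GI (I2 N) N K)) (gI (Ix N)) :=
  (mp_right (ι := Ix N) (ι' := Ix N)).comp mp_r0

section meas

variable {ι : Type} [Fintype ι] {F : (ι → ℝ) → ℝ} {T x y : ℝ}

lemma measurable_cb2 (T : ℝ) : Measurable fun p : (ι → ℝ) × (ι → ℝ) => cb2 T p.1 p.2 := by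
  unfold cb2
  fun_prop

lemma measurable_W2 (hF : Measurable F) (y T : ℝ) : Measurable (W2 y T F) := by
  have h1 : Measurable fun p : (ι → ℝ) × (ι → ℝ) => Real.exp (y * F (cb2 T p.1 p.2)) :=
    ((hF.comp (measurable_cb2 T)).const_mul y).exp
  exact (h1.stronglyMeasurable.integral_prod_right' (ν := gI ι)).measurable.log.const_mul _

lemma norm_cb2_sub (T : ℝ) (u v u' v' : ι → ℝ) :
    ‖cb2 T u v - cb2 T u' v'‖ ≤ √(1 - T) * ‖u - u'‖ + √T * ‖v - v'‖ := by
  have e : cb2 T u v - cb2 T u' v' = √(1 - T) • (u - u') + √T • (v - v') := by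
    funext p
    simp only [cb2, Pi.sub_apply, Pi.add_apply, Pi.smul_apply, smul_eq_mul]
    ring
  rw [e]
  refine (norm_add_le _ _).trans (le_of_eq ?_)
  rw [norm_smul, norm_smul, Real.norm_of_nonneg (Real.sqrt_nonneg _),
    Real.norm_of_nonneg (Real.sqrt_nonneg _)]

lemma lip_cb2 (hF : Lip F) (T : ℝ) (u : ι → ℝ) : Lip fun v => F (cb2 T u v) := by
  obtain ⟨L, hL, h⟩ := hF
  refine ⟨L * √T, by positivity, fun v v' => (h _ _).trans ?_⟩
  have := norm_cb2_sub T u v u v'
  rw [sub_self, norm_zero, mul_zero, zero_add] at this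
  calc L * ‖cb2 T u v - cb2 T u v'‖ ≤ L * (√T * ‖v - v'‖) := mul_le_mul_of_nonneg_left this hL
    _ = _ := by ring

lemma int_cb2 (hF : Lip F) (y T : ℝ) (u : ι → ℝ) :
    Integrable (fun v => Real.exp (y * F (cb2 T u v))) (gI ι) :=
  ((lip_cb2 hF T u).exp_eg y).integrable

lemma int_cb2_pos (hF : Lip F) (y T : ℝ) (u : ι → ℝ) :
    0 < ∫ v, Real.exp (y * F (cb2 T u v)) ∂(gI ι) := integral_exp_pos (int_cb2 hF y T u)

/-- the inner log-moment is Lipschitz -/
lemma lip_W2 (hF : Lip F) (hy : 0 < y) (T : ℝ) : Lip (W2 y T F) := by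
  obtain ⟨L, hL, h⟩ := id hF
  have key : ∀ a b, W2 y T F a ≤ W2 y T F b + L * √(1 - T) * ‖a - b‖ := by
    intro a b
    have h1 : ∫ v, Real.exp (y * F (cb2 T a v)) ∂(gI ι) ≤
        (∫ v, Real.exp (y * F (cb2 T b v)) ∂(gI ι)) * Real.exp (y * (L * √(1 - T) * ‖a - b‖)) := by
      rw [← integral_mul_const]
      refine integral_mono (int_cb2 hF y T a) ((int_cb2 hF y T b).mul_const _) fun v => ?_
      simp only
      rw [← Real.exp_add, ← mul_add]
      refine Real.exp_le_exp.2 (mul_le_mul_of_nonneg_left ?_ hy.le)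
      have h2 := h (cb2 T a v) (cb2 T b v)
      have h3 := norm_cb2_sub T a v b v
      rw [sub_self, norm_zero, mul_zero, add_zero] at h3
      have h4 := mul_le_mul_of_nonneg_left h3 hL
      have h5 := (abs_le.1 h2).2
      linarith
    have h2 := Real.log_le_log (int_cb2_pos hF y T a) h1
    rw [Real.log_mul (int_cb2_pos hF y T b).ne' (Real.exp_pos _).ne', Real.log_exp] at h2
    unfold W2
    have h3 := mul_le_mul_of_nonneg_left h2 (show 0 ≤ 1 / y by positivity)
    refine h3.trans (le_of_eq ?_)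
    field_simp
  refine ⟨L * √(1 - T), by positivity, fun a b => ?_⟩
  rw [abs_le]
  have h1 := key a b
  have h2 := key b a
  rw [norm_sub_rev b a] at h2
  constructor <;> linarith

end meas

/-- The value at the beginning: the two-level moment of the partition function. -/
lemma fe_one (hK : 1 ≤ K) {L : ℕ} (hL : 2 ≤ L) (hLK : L ≤ K) {m : ℕ → ℝ} (hm : Exponents K m)
    (β T : ℝ) {q : ℕ → ℝ} :
    ((tS N K L m).wH (it (tS N K L m).H (fun x => x) (ta β T) (tb β q) (Real.pi / 2))).fe =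
      Ps (m 1) (m L) T (Ft β N) := by
  have hS := tS_regD (N := N) hK hLK hm
  have hR := (regD_it (α := ta β T) (β := tb β q) hS pot_id (Real.pi / 2)).toReg
  set R := (tS N K L m).wH (it (tS N K L m).H (fun x => x) (ta β T) (tb β q) (Real.pi / 2))
    with hRdef
  have hH : ∀ z x, R.H z x = -(N * Real.log 2) + β / 2 * qf (Wm N (cmb T (r0 z))) (spin x) := by
    intro z x
    show -(N * Real.log 2) + itU (ta β T) (tb β q) (Real.pi / 2) z x = _
    unfold itU
    rw [Real.sin_pi_div_two, Real.cos_pi_div_two, zero_mul, one_mul, add_zero, lin_ta]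
  have htop : ∀ z, R.top z = Ft β N (cb2 T (r1 z) (r2 z)) := by
    intro z
    unfold Sy.top Ft
    congr 1
    refine Finset.sum_congr rfl fun x _ => ?_
    rw [hH]
    congr 1
    have : cmb T (r0 z) = cb2 T (r1 z) (r2 z) := rfl
    rw [this]
    ring
  have hRK : R.K = K := rfl
  have hm1 : ∀ l, R.m l = m l := fun _ => rfl
  have e1 : ∀ l, 1 ≤ l → ∀ z w, r1 (mix R.lev l z w) = r1 z := by
    intro l hl z w
    funext e
    unfold r1 mix
    exact if_pos hl
  have e2 : ∀ l, L ≤ l → ∀ z w, r2 (mix R.lev l z w) = r2 z := by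
    intro l hl z w
    funext e
    unfold r2 mix
    exact if_pos hl
  have e2' : ∀ l, l < L → ∀ z w, r2 (mix R.lev l z w) = r2 w := by
    intro l hl z w
    funext e
    unfold r2 mix
    exact if_neg (Nat.not_le.2 hl)
  -- the levels at least `L`
  have key : ∀ l ≤ R.K, L ≤ l → R.lg l = R.top := by
    intro l hl
    refine Sy.down_ind (P := fun l => L ≤ l → R.lg l = R.top) (fun _ => Sy.lg_top R)
      (fun l hl ih hl1 => ?_) l hl
    rw [Sy.lg_step R hl, ih (by omega)]
    funext z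
    have hd : Dep R.lev l (fun z => Real.exp (R.m (l + 1) * R.top z)) := by
      intro z w
      simp only [htop, e1 l (by omega) z w, e2 l hl1 z w]
    have hm' : R.m (l + 1) ≠ 0 := (hR.m_pos (by omega) (by omega)).ne'
    unfold Sy.stp
    rw [hd.J_eq, Real.log_exp]
    field_simp
  -- the level `L - 1`
  have hLl : R.lg (L - 1) = fun z => W2 (m L) T (Ft β N) (r1 z) := by
    rw [Sy.lg_step R (by omega), key (L - 1 + 1) (by omega) (by omega)]
    funext z
    unfold Sy.stp W2
    rw [hm1, Nat.sub_add_cancel (by omega : 1 ≤ L)]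
    congr 2
    unfold J
    have h3 : ∀ w, Real.exp (m L * R.top (mix R.lev (L - 1) z w)) =
        Real.exp (m L * Ft β N (cb2 T (r1 z) (r2 w))) := by
      intro w
      rw [htop, e1 (L - 1) (by omega) z w, e2' (L - 1) (by omega) z w]
    simp only [h3]
    have h4 := mp_r2 (N := N) (K := K)
    have h5 := (int_cb2 (lip_Ft β N) (m L) T (r1 z)).aestronglyMeasurable
    rw [← h4.map_eq] at h5
    have h6 := integral_map h4.measurable.aemeasurable h5
    rw [h4.map_eq] at h6
    exact h6.symm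
  -- the levels between `1` and `L - 1`
  have key2 : ∀ j, j ≤ L - 2 → R.lg (L - 1 - j) = fun z => W2 (m L) T (Ft β N) (r1 z) := by
    intro j
    induction j with
    | zero => intro _; exact hLl
    | succ j ih =>
      intro hj
      have e3 : L - 1 - (j + 1) + 1 = L - 1 - j := by omega
      rw [Sy.lg_step R (l := L - 1 - (j + 1)) (by omega), e3, ih (by omega)]
      funext z
      have hd : Dep R.lev (L - 1 - (j + 1))
          (fun z => Real.exp (R.m (L - 1 - (j + 1) + 1) * W2 (m L) T (Ft β N) (r1 z))) := by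
        intro z w
        simp only [e1 (L - 1 - (j + 1)) (by omega) z w]
      have hm' : R.m (L - 1 - (j + 1) + 1) ≠ 0 := (hR.m_pos (by omega) (by omega)).ne'
      unfold Sy.stp
      rw [hd.J_eq, Real.log_exp]
      field_simp
  have hl1 : R.lg 1 = fun z => W2 (m L) T (Ft β N) (r1 z) := by
    have := key2 (L - 2) le_rfl
    rwa [show L - 1 - (L - 2) = 1 by omega] at this
  have h0 : R.lg 0 = fun _ => Ps (m 1) (m L) T (Ft β N) := by
    rw [Sy.lg_step R (by omega), zero_add, hl1]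
    funext z
    unfold Sy.stp Ps
    rw [hm1, zero_add]
    congr 2
    unfold J
    have h3 : ∀ w, Real.exp (m 1 * W2 (m L) T (Ft β N) (r1 (mix R.lev 0 z w))) =
        Real.exp (m 1 * W2 (m L) T (Ft β N) (r1 w)) := by
      intro w
      have : r1 (mix R.lev 0 z w) = r1 w := by
        funext e
        unfold r1 mix
        exact if_neg (by show ¬ (1 ≤ 0); omega)
      rw [this]
    simp only [h3]
    have h4 := mp_r1 (N := N) (K := K)
    have h5 : AEStronglyMeasurable (fun u => Real.exp (m 1 * W2 (m L) T (Ft β N) u))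
        (gI (Ix N)) :=
      (((measurable_W2 (lip_Ft β N).measurable (m L) T).const_mul _).exp).aestronglyMeasurable
    rw [← h4.map_eq] at h5
    have h6 := integral_map h4.measurable.aemeasurable h5
    rw [h4.map_eq] at h6
    exact h6.symm
  unfold Sy.fe
  rw [h0]
  simp

/-- **Guerra's bound with the disorder split over two levels.** -/
theorem gueT (hN : 0 < N) {L : ℕ} (hL : 2 ≤ L) (hLK : L ≤ K) {m q : ℕ → ℝ}
    (hm : Exponents K m) (hq : Path K q) (hq0 : q 0 = 0) {β T : ℝ} (hβ : 0 ≤ β) (hT : 0 ≤ T)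
    (hT1 : T < 1) :
    Ps (m 1) (m L) T (Ft β N) ≤ N * (PSK β K m q + β ^ 2 / 4 * (T / (1 - T) *
      ∑ l ∈ Finset.range L, (m (l + 1) - m l) * q l ^ 2)) := by
  have hK : 1 ≤ K := by omega
  have hS := tS_regD (N := N) hK hLK hm
  have h := int_le hS pot_id (sep_t β T q)
    (fun θ _ _ => brk_le hN hK (by omega) hLK hm β hT hT1 hq hq0 θ)
  rw [fe_zero hK hLK hm hβ T hq, fe_one hK hL hLK hm β T] at h
  unfold PSK
  have e : ∑ l ∈ Finset.range (K + 1), (m (l + 1) - m l) *
      (β ^ 2 / 2 * N * (q l ^ 2 / shl T L l)) =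
      β ^ 2 / 2 * N * ((∑ l ∈ Finset.range (K + 1), (m (l + 1) - m l) * q l ^ 2) +
        T / (1 - T) * ∑ l ∈ Finset.range L, (m (l + 1) - m l) * q l ^ 2) := by
    have h1 : ∀ l ∈ Finset.range (K + 1), (m (l + 1) - m l) *
        (β ^ 2 / 2 * N * (q l ^ 2 / shl T L l)) =
        β ^ 2 / 2 * N * ((m (l + 1) - m l) * q l ^ 2) +
          β ^ 2 / 2 * N * (T / (1 - T)) *
            (if l < L then (m (l + 1) - m l) * q l ^ 2 else 0) := by
      intro l _
      have h2 : (1 - T) ≠ 0 := by linarith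
      unfold shl
      split_ifs
      · field_simp
        ring
      · ring
    rw [Finset.sum_congr rfl h1, Finset.sum_add_distrib, ← Finset.mul_sum, ← Finset.mul_sum,
      ← Finset.sum_filter]
    have h3 : (Finset.range (K + 1)).filter (fun l => l < L) = Finset.range L := by
      ext j
      simp only [Finset.mem_filter, Finset.mem_range]
      omega
    rw [h3]
    ring
  rw [e] at h
  linarith only [h]

end Vale.Agent.P146.H346
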