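import Vale.Agent.P146.H346.GueF

/-!
# P146: Guerra's bound with two shares of the disorder and a plain field

The share `1 - T` of the disorder and a plain Gaussian field of variance `V` are put at the level
`1` (exponent `m 1`), the share `T` of the disorder at the level `L` (exponent `m L`). In the
comparison the fields of the level one get the additional variance `V`.
-/

open MeasureTheory ProbabilityTheory Filter Topology

namespace Vale.Agent.P146.H346

set_option linter.unusedSectionVars false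

open Vale.Agent.P157 (spin)
open Vale.Agent.P157.Lv
open Vale.Agent.P157.Lv.Sy
open Vale.Agent.P157.Par (Path Exponents spinPart topN lw incr)
open Vale.Agent.P146.Sk (Ix Wm qf Ft PSK)
open Vale.Agent.P146.Sk.Gen (GI gz r0)
open Vale.Agent.P146.Ub (pot_id sum_incr' incr_nonneg' spin_sq' alg_sq lip_Ft)

variable {N K : ℕ}

/-- The two shares of the disorder and the plain field. -/
abbrev I3 (N : ℕ) : Type := (Ix N ⊕ Ix N) ⊕ Fin N

/-- The levels: the first share and the plain field are at the level one, the second share is at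
the level `L`. -/
def vl (L : ℕ) : GI (I3 N) N K → ℕ
  | Sum.inl (Sum.inl (Sum.inl _)) => 1
  | Sum.inl (Sum.inl (Sum.inr _)) => L
  | Sum.inl (Sum.inr _) => 1
  | Sum.inr p => p.1

/-- The coefficients of the energy of the SK model with a plain field. -/
noncomputable def va (β T V : ℝ) (x : Fin N → Bool) : GI (I3 N) N K → ℝ
  | Sum.inl (Sum.inl (Sum.inl p)) => β / √(2 * (N : ℝ)) * √(1 - T) * (spin x p.1 * spin x p.2)
  | Sum.inl (Sum.inl (Sum.inr p)) => β / √(2 * (N : ℝ)) * √T * (spin x p.1 * spin x p.2)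
  | Sum.inl (Sum.inr i) => √V * spin x i
  | Sum.inr _ => 0

/-- The strengths of the fields. -/
noncomputable def sv (β V : ℝ) (q : ℕ → ℝ) (l : ℕ) : ℝ :=
  √(β ^ 2 * incr q l + if l = 1 then V else 0)

/-- The coefficients of the fields. -/
noncomputable def vb (β V : ℝ) (q : ℕ → ℝ) (x : Fin N → Bool) : GI (I3 N) N K → ℝ
  | Sum.inl _ => 0
  | Sum.inr p => sv β V q p.1 * spin x p.2

/-- The trivial system. -/
noncomputable def vS (N K L : ℕ) (m : ℕ → ℝ) : Sy (GI (I3 N) N K) (Fin N → Bool) :=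
  ⟨vl L, K, m, fun _ _ => -(N * Real.log 2)⟩

lemma vS_regD {L : ℕ} (hK : 1 ≤ K) (hL : L ≤ K) {m : ℕ → ℝ} (hm : Exponents K m) :
    (vS N K L m).RegD (fun _ _ _ => 0) where
  m0 := hm.1
  mK := hm.2.1
  mono := fun l hl => (hm.2.2 l hl).le
  pos := by
    have := hm.2.2 0 (Nat.zero_le _)
    rw [hm.1] at this
    exact this
  lev := by
    rintro (((e | e) | e) | p)
    · exact hK
    · exact hL
    · exact hK
    · exact Nat.le_of_lt_succ p.1.2
  lip := fun x => Lip.const _
  pd := fun e x => PD.const _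
  md := fun e x => measurable_const
  bd := ⟨0, fun e z x => by simp⟩

lemma sep_v (β T V : ℝ) (q : ℕ → ℝ) :
    Sep (ι := GI (I3 N) N K) (fun _ _ _ => 0) (va β T V) (vb β V q) where
  disj := by
    rintro (e | p) x x'
    · exact mul_zero _
    · exact zero_mul _
  indep := fun e x _ z y => rfl

/-- Summation over the coordinates. -/
lemma sum_GI3 (f : GI (I3 N) N K → ℝ) : ∑ e, f e =
    (∑ p : Ix N, f (Sum.inl (Sum.inl (Sum.inl p)))) +
      (∑ p : Ix N, f (Sum.inl (Sum.inl (Sum.inr p)))) +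
      (∑ i : Fin N, f (Sum.inl (Sum.inr i))) +
      ∑ l ∈ Finset.range (K + 1), ∑ i : Fin N, f (gz l i) := by
  rw [Fintype.sum_sum_type, Fintype.sum_sum_type, Fintype.sum_sum_type]
  congr 1
  rw [Fintype.sum_prod_type, Finset.sum_range (fun l => ∑ i : Fin N, f (gz l i))]
  refine Finset.sum_congr rfl fun l _ => Finset.sum_congr rfl fun i _ => ?_
  unfold gz
  rw [Fin.ofNat_val_eq_self]

/-- the coordinates of the first share -/
def v1 (z : GI (I3 N) N K → ℝ) : Ix N → ℝ := fun p => z (Sum.inl (Sum.inl (Sum.inl p)))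

/-- the coordinates of the second share -/
def v2 (z : GI (I3 N) N K → ℝ) : Ix N → ℝ := fun p => z (Sum.inl (Sum.inl (Sum.inr p)))

/-- the coordinates of the plain field -/
def v3 (z : GI (I3 N) N K → ℝ) : Fin N → ℝ := fun i => z (Sum.inl (Sum.inr i))

lemma lin_va (β T V : ℝ) (x : Fin N → Bool) (z : GI (I3 N) N K → ℝ) :
    lin (va β T V x) z = β / 2 * qf (Wm N (cb2 T (v1 z) (v2 z))) (spin x) +
      ∑ i, (√V • v3 z) i * spin x i := by
  unfold lin
  rw [sum_GI3]
  have h0 : ∀ l ∈ Finset.range (K + 1),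
      ∑ i : Fin N, va β T V x (gz l i : GI (I3 N) N K) * z (gz l i) = 0 :=
    fun l _ => Finset.sum_eq_zero fun i _ => by
      show 0 * z (gz l i) = 0
      rw [zero_mul]
  rw [Finset.sum_eq_zero h0, add_zero]
  congr 1
  · rw [Sk.qf_Wm, Fintype.sum_prod_type, Fintype.sum_prod_type]
    simp only [va, Finset.mul_sum, v1, v2, cb2]
    rw [← Finset.sum_add_distrib]
    refine Finset.sum_congr rfl fun i _ => ?_
    rw [← Finset.sum_add_distrib]
    refine Finset.sum_congr rfl fun j _ => ?_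
    ring
  · refine Finset.sum_congr rfl fun i _ => ?_
    simp only [va, v3, Pi.smul_apply, smul_eq_mul]
    ring

lemma lin_vb (β V : ℝ) (q : ℕ → ℝ) (x : Fin N → Bool) (z : GI (I3 N) N K → ℝ) :
    lin (vb β V q x) z =
      ∑ l ∈ Finset.range (K + 1), sv β V q l * ∑ i, z (gz l i) * spin x i := by
  unfold lin
  rw [sum_GI3]
  have h0 : ∀ p ∈ (Finset.univ : Finset (Ix N)),
      vb (K := K) β V q x (Sum.inl (Sum.inl (Sum.inl p))) *
        z (Sum.inl (Sum.inl (Sum.inl p))) = 0 := fun p _ => by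
    show 0 * _ = (0 : ℝ)
    rw [zero_mul]
  have h0' : ∀ p ∈ (Finset.univ : Finset (Ix N)),
      vb (K := K) β V q x (Sum.inl (Sum.inl (Sum.inr p))) *
        z (Sum.inl (Sum.inl (Sum.inr p))) = 0 := fun p _ => by
    show 0 * _ = (0 : ℝ)
    rw [zero_mul]
  have h0'' : ∀ i ∈ (Finset.univ : Finset (Fin N)),
      vb (K := K) β V q x (Sum.inl (Sum.inr i)) * z (Sum.inl (Sum.inr i)) = 0 := fun p _ => by
    show 0 * _ = (0 : ℝ)
    rw [zero_mul]
  rw [Finset.sum_eq_zero h0, Finset.sum_eq_zero h0', Finset.sum_eq_zero h0'', zero_add, zero_add,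
    zero_add]
  refine Finset.sum_congr rfl fun l hl => ?_
  rw [Finset.mul_sum]
  refine Finset.sum_congr rfl fun i _ => ?_
  have h1 : ((Fin.ofNat (K + 1) l : Fin (K + 1)) : ℕ) = l := by
    simp only [Fin.ofNat, Nat.mod_eq_of_lt (Finset.mem_range.1 hl)]
  show sv β V q ((Fin.ofNat (K + 1) l : Fin (K + 1)) : ℕ) * spin x i * z (gz l i) = _
  rw [h1]
  ring

/-- The variance of the energy of the SK model. -/
lemma sum_va_sq (hN : 0 < N) (β : ℝ) {T V : ℝ} (hT : 0 ≤ T) (hT1 : T ≤ 1) (hV : 0 ≤ V)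
    (x : Fin N → Bool) :
    ∑ e : GI (I3 N) N K, va β T V x e ^ 2 = β ^ 2 / 2 * N + N * V := by
  have hN' : (0 : ℝ) < N := by exact_mod_cast hN
  rw [sum_GI3]
  have h0 : ∀ l ∈ Finset.range (K + 1), ∑ i : Fin N,
      (va β T V x (gz l i : GI (I3 N) N K)) ^ 2 = 0 :=
    fun l _ => Finset.sum_eq_zero fun i _ => by
      show (0 : ℝ) ^ 2 = 0
      norm_num
  rw [Finset.sum_eq_zero h0, add_zero]
  have h1 : ∀ p : Ix N, va (K := K) β T V x (Sum.inl (Sum.inl (Sum.inl p))) ^ 2 =
      (1 - T) * (β ^ 2 / (2 * N)) := by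
    intro p
    show (β / √(2 * (N : ℝ)) * √(1 - T) * (spin x p.1 * spin x p.2)) ^ 2 = _
    rw [mul_pow, mul_pow, mul_pow, spin_sq', spin_sq', div_pow, Real.sq_sqrt (by positivity),
      Real.sq_sqrt (by linarith)]
    ring
  have h2 : ∀ p : Ix N, va (K := K) β T V x (Sum.inl (Sum.inl (Sum.inr p))) ^ 2 =
      T * (β ^ 2 / (2 * N)) := by
    intro p
    show (β / √(2 * (N : ℝ)) * √T * (spin x p.1 * spin x p.2)) ^ 2 = _
    rw [mul_pow, mul_pow, mul_pow, spin_sq', spin_sq', div_pow, Real.sq_sqrt (by positivity),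
      Real.sq_sqrt (by linarith)]
    ring
  have h3 : ∀ i : Fin N, va (K := K) β T V x (Sum.inl (Sum.inr i)) ^ 2 = V := by
    intro i
    show (√V * spin x i) ^ 2 = _
    rw [mul_pow, spin_sq', Real.sq_sqrt hV, mul_one]
  simp only [h1, h2, h3, Finset.sum_const, Finset.card_univ, Fintype.card_prod, Fintype.card_fin,
    nsmul_eq_mul]
  push_cast
  field_simp
  ring

lemma vb_gz (β V : ℝ) (q : ℕ → ℝ) (x : Fin N → Bool) {l : ℕ} (hl : l ≤ K) (i : Fin N) :
    vb β V q x (gz l i : GI (I3 N) N K) = sv β V q l * spin x i := by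
  have h1 : ((Fin.ofNat (K + 1) l : Fin (K + 1)) : ℕ) = l := by
    simp only [Fin.ofNat, Nat.mod_eq_of_lt (Nat.lt_succ_of_le hl)]
  show sv β V q ((Fin.ofNat (K + 1) l : Fin (K + 1)) : ℕ) * spin x i = _
  rw [h1]

lemma sv_sq (β : ℝ) {V : ℝ} (hV : 0 ≤ V) {q : ℕ → ℝ} (hq : Path K q) {l : ℕ} (hl : l ≤ K) :
    sv β V q l ^ 2 = β ^ 2 * incr q l + if l = 1 then V else 0 := by
  unfold sv
  refine Real.sq_sqrt (add_nonneg (mul_nonneg (sq_nonneg _) (incr_nonneg' hq hl)) ?_)
  split_ifs
  · exact hV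
  · exact le_rfl

lemma sum_sv_sq (β : ℝ) {V : ℝ} (hV : 0 ≤ V) {q : ℕ → ℝ} (hq : Path K q) {l : ℕ} (hl : l ≤ K) :
    ∑ j ∈ Finset.range (l + 1), sv β V q j ^ 2 = β ^ 2 * q l + if 1 ≤ l then V else 0 := by
  have h1 : ∀ j ∈ Finset.range (l + 1), sv β V q j ^ 2 =
      β ^ 2 * incr q j + if j = 1 then V else 0 := fun j hj =>
    sv_sq β hV hq (by have := Finset.mem_range.1 hj; omega)
  rw [Finset.sum_congr rfl h1, Finset.sum_add_distrib, ← Finset.mul_sum, sum_incr' q l,
    Finset.sum_ite_eq']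
  congr 1
  simp only [Finset.mem_range]
  by_cases h : 1 ≤ l
  · rw [if_pos (by omega), if_pos h]
  · rw [if_neg (by omega), if_neg h]

/-- The variance of the fields. -/
lemma sum_vb_sq (hK : 1 ≤ K) (β : ℝ) {V : ℝ} (hV : 0 ≤ V) {q : ℕ → ℝ} (hq : Path K q)
    (x : Fin N → Bool) :
    ∑ e : GI (I3 N) N K, vb β V q x e ^ 2 = β ^ 2 * N * q K + N * V := by
  rw [sum_GI3]
  have h0 : ∀ p ∈ (Finset.univ : Finset (Ix N)),
      vb (K := K) β V q x (Sum.inl (Sum.inl (Sum.inl p))) ^ 2 = 0 := fun p _ => by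
    show (0 : ℝ) ^ 2 = 0
    norm_num
  have h0' : ∀ p ∈ (Finset.univ : Finset (Ix N)),
      vb (K := K) β V q x (Sum.inl (Sum.inl (Sum.inr p))) ^ 2 = 0 := fun p _ => by
    show (0 : ℝ) ^ 2 = 0
    norm_num
  have h0'' : ∀ i ∈ (Finset.univ : Finset (Fin N)),
      vb (K := K) β V q x (Sum.inl (Sum.inr i)) ^ 2 = 0 := fun p _ => by
    show (0 : ℝ) ^ 2 = 0
    norm_num
  rw [Finset.sum_eq_zero h0, Finset.sum_eq_zero h0', Finset.sum_eq_zero h0'', zero_add, zero_add,
    zero_add]
  have h1 : ∀ l ∈ Finset.range (K + 1),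
      ∑ i : Fin N, vb β V q x (gz l i : GI (I3 N) N K) ^ 2 = N * sv β V q l ^ 2 := by
    intro l hl
    have hl' : l ≤ K := Nat.le_of_lt_succ (Finset.mem_range.1 hl)
    have h2 : ∀ i : Fin N, vb β V q x (gz l i : GI (I3 N) N K) ^ 2 = sv β V q l ^ 2 := by
      intro i
      rw [vb_gz β V q x hl' i, mul_pow, spin_sq', mul_one]
    simp only [h2, Finset.sum_const, Finset.card_univ, Fintype.card_fin, nsmul_eq_mul]
  rw [Finset.sum_congr rfl h1, ← Finset.mul_sum, sum_sv_sq β hV hq le_rfl, if_pos hK]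
  ring

/-- One level of the bracket. -/
lemma level_ge_v (hN : 0 < N) {R : Sy (GI (I3 N) N K) (Fin N → Bool)} (hR : R.Reg) {L : ℕ}
    (hL : 1 ≤ L) (hlev : R.lev = vl L) (hRK : R.K = K) (β : ℝ) {T V : ℝ} (hT : 0 ≤ T)
    (hT1 : T < 1) (hV : 0 ≤ V) {q : ℕ → ℝ} (hq : Path K q) (hq0 : q 0 = 0) {l : ℕ} (hl : l ≤ K) :
    -(β ^ 2 / 2 * N * (q l ^ 2 / shl T L l)) ≤ ∑ e, if R.lev e ≤ l then
      (R.Ex (fun z _ => R.T l (fun _ x => 1 * va β T V x e) z ^ 2) -
        R.Ex (fun z _ => R.T l (fun _ x => 1 * vb β V q x e) z ^ 2)) else 0 := by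
  have hN' : (0 : ℝ) < N := by exact_mod_cast hN
  have hlK : l ≤ R.K := by omega
  rw [sum_GI3, hlev]
  have hgz : ∀ j ≤ K, ∀ i : Fin N, vl L (gz j i : GI (I3 N) N K) = j := by
    intro j hj i
    show ((Fin.ofNat (K + 1) j : Fin (K + 1)) : ℕ) = j
    simp only [Fin.ofNat, Nat.mod_eq_of_lt (Nat.lt_succ_of_le hj)]
  -- the magnetizations
  set B : ℝ := ∑ i : Fin N, R.Ex (fun z _ => R.T l (fun _ x => spin x i) z ^ 2) with hB
  have hf : ∀ j ∈ Finset.range (K + 1), (∑ i : Fin N, if vl L (gz j i : GI (I3 N) N K) ≤ l then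
      (R.Ex (fun z _ => R.T l (fun _ x => 1 * va (K := K) β T V x (gz j i)) z ^ 2) -
        R.Ex (fun z _ => R.T l (fun _ x => 1 * vb (K := K) β V q x (gz j i)) z ^ 2)) else 0) =
      if j ≤ l then -(sv β V q j ^ 2 * B) else 0 := by
    intro j hj
    have hj' : j ≤ K := Nat.le_of_lt_succ (Finset.mem_range.1 hj)
    by_cases hjl : j ≤ l
    · rw [if_pos hjl, hB, Finset.mul_sum, ← Finset.sum_neg_distrib]
      refine Finset.sum_congr rfl fun i _ => ?_
      rw [if_pos (by rw [hgz j hj' i]; exact hjl)]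
      have e1 : (fun (z : GI (I3 N) N K → ℝ) (_ : Fin N → Bool) =>
          R.T l (fun _ x => 1 * va (K := K) β T V x (gz j i)) z ^ 2) = fun _ _ => 0 := by
        funext z _
        have : R.T l (fun _ x => 1 * va (K := K) β T V x (gz j i)) z = 0 := by
          rw [← hR.T_const hlK 0 z]
          congr 1
          funext z x
          show 1 * (0 : ℝ) = 0
          norm_num
        rw [this]
        norm_num
      have e2 : (fun (z : GI (I3 N) N K → ℝ) (_ : Fin N → Bool) =>
          R.T l (fun _ x => 1 * vb (K := K) β V q x (gz j i)) z ^ 2) =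
          fun z _ => sv β V q j ^ 2 * R.T l (fun _ x => spin x i) z ^ 2 := by
        funext z _
        have : R.T l (fun _ x => 1 * vb (K := K) β V q x (gz j i)) z =
            sv β V q j * R.T l (fun _ x => spin x i) z := by
          rw [← Sy.T_const_mul]
          congr 1
          funext z x
          rw [vb_gz β V q x hj' i, one_mul]
        rw [this, mul_pow]
      rw [e1, e2, hR.Ex_const, Sy.Ex_const_mul]
      ring
    · rw [if_neg hjl]
      refine Finset.sum_eq_zero fun i _ => ?_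
      rw [if_neg (by rw [hgz j hj' i]; exact hjl)]
  have hfil : (Finset.range (K + 1)).filter (fun j => j ≤ l) = Finset.range (l + 1) := by
    ext j
    simp only [Finset.mem_filter, Finset.mem_range]
    omega
  have hsum : (∑ j ∈ Finset.range (K + 1), if j ≤ l then -(sv β V q j ^ 2 * B) else 0) =
      -((β ^ 2 * q l + if 1 ≤ l then V else 0) * B) := by
    rw [← Finset.sum_filter, hfil, Finset.sum_neg_distrib, ← Finset.sum_mul,
      sum_sv_sq β hV hq hl]
  rw [Finset.sum_congr rfl hf, hsum]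
  by_cases hl0 : l = 0
  · subst hl0
    rw [hq0]
    have h0 : ∀ p ∈ (Finset.univ : Finset (Ix N)),
        (if vl L (Sum.inl (Sum.inl (Sum.inl p)) : GI (I3 N) N K) ≤ 0 then
      (R.Ex (fun z _ => R.T 0 (fun _ x => 1 * va (K := K) β T V x
          (Sum.inl (Sum.inl (Sum.inl p)))) z ^ 2) -
        R.Ex (fun z _ => R.T 0 (fun _ x => 1 * vb (K := K) β V q x
          (Sum.inl (Sum.inl (Sum.inl p)))) z ^ 2)) else 0) = 0 := by
      intro p _
      exact if_neg (by show ¬ (1 ≤ 0); omega)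
    have h0' : ∀ p ∈ (Finset.univ : Finset (Ix N)),
        (if vl L (Sum.inl (Sum.inl (Sum.inr p)) : GI (I3 N) N K) ≤ 0 then
      (R.Ex (fun z _ => R.T 0 (fun _ x => 1 * va (K := K) β T V x
          (Sum.inl (Sum.inl (Sum.inr p)))) z ^ 2) -
        R.Ex (fun z _ => R.T 0 (fun _ x => 1 * vb (K := K) β V q x
          (Sum.inl (Sum.inl (Sum.inr p)))) z ^ 2)) else 0) = 0 := by
      intro p _
      exact if_neg (by show ¬ (L ≤ 0); omega)
    have h0'' : ∀ i ∈ (Finset.univ : Finset (Fin N)),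
        (if vl L (Sum.inl (Sum.inr i) : GI (I3 N) N K) ≤ 0 then
      (R.Ex (fun z _ => R.T 0 (fun _ x => 1 * va (K := K) β T V x (Sum.inl (Sum.inr i))) z ^ 2) -
        R.Ex (fun z _ => R.T 0 (fun _ x => 1 * vb (K := K) β V q x (Sum.inl (Sum.inr i))) z ^ 2))
        else 0) = 0 := by
      intro p _
      exact if_neg (by show ¬ (1 ≤ 0); omega)
    rw [Finset.sum_eq_zero h0, Finset.sum_eq_zero h0', Finset.sum_eq_zero h0'']
    simp
  · have hl1 : 1 ≤ l := by omega
    -- the overlap part of one share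
    set A : ℝ := ∑ p : Ix N, R.Ex (fun z _ => R.T l (fun _ x => spin x p.1 * spin x p.2) z ^ 2)
      with hA
    have htb : ∀ e : I3 N, (fun (z : GI (I3 N) N K → ℝ) (_ : Fin N → Bool) =>
        R.T l (fun _ x => 1 * vb (K := K) β V q x (Sum.inl e)) z ^ 2) = fun _ _ => 0 := by
      intro e
      funext z _
      have : R.T l (fun _ x => 1 * vb (K := K) β V q x (Sum.inl e)) z = 0 := by
        rw [← hR.T_const hlK 0 z]
        congr 1
        funext z x
        show 1 * (0 : ℝ) = 0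
        norm_num
      rw [this]
      norm_num
    have h1 : ∑ p : Ix N, (if vl L (Sum.inl (Sum.inl (Sum.inl p)) : GI (I3 N) N K) ≤ l then
      (R.Ex (fun z _ => R.T l (fun _ x => 1 * va (K := K) β T V x
          (Sum.inl (Sum.inl (Sum.inl p)))) z ^ 2) -
        R.Ex (fun z _ => R.T l (fun _ x => 1 * vb (K := K) β V q x
          (Sum.inl (Sum.inl (Sum.inl p)))) z ^ 2)) else 0) =
        (1 - T) * (β ^ 2 / (2 * N)) * A := by
      rw [hA, Finset.mul_sum]
      refine Finset.sum_congr rfl fun p _ => ?_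
      rw [if_pos (by show 1 ≤ l; exact hl1), htb, hR.Ex_const, sub_zero, ← Sy.Ex_const_mul]
      congr 1
      funext z _
      have : R.T l (fun _ x => 1 * va (K := K) β T V x (Sum.inl (Sum.inl (Sum.inl p)))) z =
          β / √(2 * (N : ℝ)) * √(1 - T) * R.T l (fun _ x => spin x p.1 * spin x p.2) z := by
        rw [← Sy.T_const_mul]
        congr 1
        funext z x
        show 1 * (β / √(2 * (N : ℝ)) * √(1 - T) * (spin x p.1 * spin x p.2)) = _
        rw [one_mul]
      rw [this, mul_pow, mul_pow, div_pow, Real.sq_sqrt (by positivity),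
        Real.sq_sqrt (by linarith)]
      ring
    have h2 : ∑ p : Ix N, (if vl L (Sum.inl (Sum.inl (Sum.inr p)) : GI (I3 N) N K) ≤ l then
      (R.Ex (fun z _ => R.T l (fun _ x => 1 * va (K := K) β T V x
          (Sum.inl (Sum.inl (Sum.inr p)))) z ^ 2) -
        R.Ex (fun z _ => R.T l (fun _ x => 1 * vb (K := K) β V q x
          (Sum.inl (Sum.inl (Sum.inr p)))) z ^ 2)) else 0) =
        (if L ≤ l then T else 0) * (β ^ 2 / (2 * N)) * A := by
      rw [hA, Finset.mul_sum]
      refine Finset.sum_congr rfl fun p _ => ?_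
      have hlv : (vl L (Sum.inl (Sum.inl (Sum.inr p)) : GI (I3 N) N K) ≤ l) ↔ L ≤ l := Iff.rfl
      by_cases hLl : L ≤ l
      · rw [if_pos (hlv.2 hLl), if_pos hLl, htb, hR.Ex_const, sub_zero, ← Sy.Ex_const_mul]
        congr 1
        funext z _
        have : R.T l (fun _ x => 1 * va (K := K) β T V x (Sum.inl (Sum.inl (Sum.inr p)))) z =
            β / √(2 * (N : ℝ)) * √T * R.T l (fun _ x => spin x p.1 * spin x p.2) z := by
          rw [← Sy.T_const_mul]
          congr 1
          funext z x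
          show 1 * (β / √(2 * (N : ℝ)) * √T * (spin x p.1 * spin x p.2)) = _
          rw [one_mul]
        rw [this, mul_pow, mul_pow, div_pow, Real.sq_sqrt (by positivity), Real.sq_sqrt hT]
        ring
      · rw [if_neg (fun h => hLl (hlv.1 h)), if_neg hLl]
        ring
    have h3 : ∑ i : Fin N, (if vl L (Sum.inl (Sum.inr i) : GI (I3 N) N K) ≤ l then
      (R.Ex (fun z _ => R.T l (fun _ x => 1 * va (K := K) β T V x (Sum.inl (Sum.inr i))) z ^ 2) -
        R.Ex (fun z _ => R.T l (fun _ x => 1 * vb (K := K) β V q x (Sum.inl (Sum.inr i))) z ^ 2))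
        else 0) = V * B := by
      rw [hB, Finset.mul_sum]
      refine Finset.sum_congr rfl fun i _ => ?_
      rw [if_pos (by show 1 ≤ l; exact hl1), htb, hR.Ex_const, sub_zero, ← Sy.Ex_const_mul]
      congr 1
      funext z _
      have : R.T l (fun _ x => 1 * va (K := K) β T V x (Sum.inl (Sum.inr i))) z =
          √V * R.T l (fun _ x => spin x i) z := by
        rw [← Sy.T_const_mul]
        congr 1
        funext z x
        show 1 * (√V * spin x i) = _
        rw [one_mul]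
      rw [this, mul_pow, Real.sq_sqrt hV]
    rw [h1, h2, h3, if_pos hl1]
    have hc : (1 - T) * (β ^ 2 / (2 * N)) * A + (if L ≤ l then T else 0) * (β ^ 2 / (2 * N)) * A =
        shl T L l * (β ^ 2 / (2 * N)) * A := by
      unfold shl
      by_cases hLl : L ≤ l
      · rw [if_pos hLl, if_neg (by omega)]
        ring
      · rw [if_neg hLl, if_pos (by omega)]
        ring
    rw [hc]
    set s : ℝ := shl T L l with hs
    have hs0 : 0 < s := shl_pos hT1 L l
    have hNs : ∀ i : Fin N, EG fun z => R.T l (fun _ x => spin x i) z ^ 2 := fun i =>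
      (hR.eg_T hlK (Nh.snd fun x => spin x i)).pow 2
    have hNp : ∀ p : Ix N, EG fun z => R.T l (fun _ x => spin x p.1 * spin x p.2) z ^ 2 := fun p =>
      (hR.eg_T hlK (Nh.snd fun x => spin x p.1 * spin x p.2)).pow 2
    have h4 : s * (β ^ 2 / (2 * N)) * A - β ^ 2 * q l * B =
        R.Ex (fun z _ => s * (β ^ 2 / (2 * N)) * (∑ p : Ix N,
          R.T l (fun _ x => spin x p.1 * spin x p.2) z ^ 2) -
          β ^ 2 * q l * ∑ i : Fin N, R.T l (fun _ x => spin x i) z ^ 2) := by
      rw [hR.Ex_sub (Nh.const_mul _ (Nh.fst (EG.sum _ fun p _ => hNp p)))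
        (Nh.const_mul _ (Nh.fst (EG.sum _ fun i _ => hNs i))), Sy.Ex_const_mul, Sy.Ex_const_mul,
        hR.Ex_sum _ (fun p _ => Nh.fst (hNp p)), hR.Ex_sum _ (fun i _ => Nh.fst (hNs i))]
    have h5 : -(β ^ 2 / 2 * N * (q l ^ 2 / s)) ≤ R.Ex (fun z _ => s * (β ^ 2 / (2 * N)) *
        (∑ p : Ix N, R.T l (fun _ x => spin x p.1 * spin x p.2) z ^ 2) -
          β ^ 2 * q l * ∑ i : Fin N, R.T l (fun _ x => spin x i) z ^ 2) := by
      rw [← hR.Ex_const (-(β ^ 2 / 2 * N * (q l ^ 2 / s)))]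
      refine hR.Ex_mono (Nh.snd fun _ => _)
        (Nh.sub (Nh.const_mul _ (Nh.fst (EG.sum _ fun p _ => hNp p)))
        (Nh.const_mul _ (Nh.fst (EG.sum _ fun i _ => hNs i)))) fun z _ => ?_
      have h4 := alg_sq (w := fun x => R.pr l z x) (fun x => hR.pr_nonneg hlK z x)
        (hR.sum_pr hlK z) (fun x => spin x) (N * (q l / s))
      have h5 : ∀ i : Fin N, R.T l (fun _ x => spin x i) z = ∑ x, R.pr l z x * spin x i :=
        fun i => hR.T_pr hlK (fun x => spin x i) z
      have h6 : ∀ p : Ix N, R.T l (fun _ x => spin x p.1 * spin x p.2) z =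
          ∑ x, R.pr l z x * (spin x p.1 * spin x p.2) :=
        fun p => hR.T_pr hlK (fun x => spin x p.1 * spin x p.2) z
      simp only [h5, h6]
      have h7 := mul_le_mul_of_nonneg_left h4
        (show 0 ≤ s * (β ^ 2 / (2 * N)) by (clear * - hN' hs0; positivity))
      have h8 : s * (β ^ 2 / (2 * N)) * (2 * (N * (q l / s)) *
          (∑ i, (∑ x, R.pr l z x * spin x i) ^ 2) - (N * (q l / s)) ^ 2) =
          β ^ 2 * q l * (∑ i, (∑ x, R.pr l z x * spin x i) ^ 2) -
          β ^ 2 / 2 * N * (q l ^ 2 / s) := by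
        field_simp
      rw [h8] at h7
      linarith only [h7]
    linarith only [h4, h5]

/-- The bound of the bracket. -/
lemma brk_le_v (hN : 0 < N) (hK : 1 ≤ K) {L : ℕ} (hL : 1 ≤ L) (hLK : L ≤ K) {m : ℕ → ℝ}
    (hm : Exponents K m) (β : ℝ) {T V : ℝ} (hT : 0 ≤ T) (hT1 : T < 1) (hV : 0 ≤ V) {q : ℕ → ℝ}
    (hq : Path K q) (hq0 : q 0 = 0) (θ : ℝ) :
    brk (vS N K L m) (fun x => x) (fun _ => 1) (fun _ => 0) (va β T V) (vb β V q) θ ≤
      β ^ 2 / 2 * N - β ^ 2 * N * q K +
        ∑ l ∈ Finset.range (K + 1), (m (l + 1) - m l) *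
          (β ^ 2 / 2 * N * (q l ^ 2 / shl T L l)) := by
  have hS := vS_regD (N := N) hK hLK hm
  have hR := (regD_it (α := va β T V) (β := vb β V q) hS pot_id θ).toReg
  unfold brk
  have e1 : (fun (z : GI (I3 N) N K → ℝ) (x : Fin N → Bool) => ((0 : ℝ) + 1 ^ 2) *
      (∑ e : GI (I3 N) N K, va β T V x e ^ 2 - ∑ e : GI (I3 N) N K, vb β V q x e ^ 2)) =
      fun _ _ => β ^ 2 / 2 * N - β ^ 2 * N * q K := by
    funext z x
    rw [sum_va_sq hN β hT hT1.le hV, sum_vb_sq hK β hV hq]
    ring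
  simp only []
  rw [e1, hR.Ex_const]
  have h2 : ∑ l ∈ Finset.range (K + 1), (m (l + 1) - m l) *
      (-(β ^ 2 / 2 * N * (q l ^ 2 / shl T L l))) ≤
      ∑ l ∈ Finset.range ((vS N K L m).K + 1), (vS N K L m).p l *
        ∑ e, if (vS N K L m).lev e ≤ l then
      (((vS N K L m).wH (it (vS N K L m).H (fun x => x) (va β T V) (vb β V q) θ)).Ex (fun z _ =>
        ((vS N K L m).wH (it (vS N K L m).H (fun x => x) (va β T V) (vb β V q) θ)).T l
          (fun _ x => 1 * va β T V x e) z ^ 2) -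
        ((vS N K L m).wH (it (vS N K L m).H (fun x => x) (va β T V) (vb β V q) θ)).Ex (fun z _ =>
        ((vS N K L m).wH (it (vS N K L m).H (fun x => x) (va β T V) (vb β V q) θ)).T l
          (fun _ x => 1 * vb β V q x e) z ^ 2)) else 0 := by
    refine Finset.sum_le_sum fun l hl => ?_
    have hl' : l ≤ K := Nat.le_of_lt_succ (Finset.mem_range.1 hl)
    exact mul_le_mul_of_nonneg_left (level_ge_v hN hR hL rfl rfl β hT hT1 hV hq hq0 hl')
      (by linarith only [hm.2.2 l hl'])
  have h3 : ∑ l ∈ Finset.range (K + 1), (m (l + 1) - m l) *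
      (-(β ^ 2 / 2 * N * (q l ^ 2 / shl T L l))) =
      -∑ l ∈ Finset.range (K + 1), (m (l + 1) - m l) *
        (β ^ 2 / 2 * N * (q l ^ 2 / shl T L l)) := by
    rw [← Finset.sum_neg_distrib]
    exact Finset.sum_congr rfl fun l _ => by ring
  rw [h3] at h2
  linarith only [h2]

/-- the path with the plain field -/
noncomputable def rV (β V : ℝ) (q : ℕ → ℝ) (l : ℕ) : ℝ := if l = 0 then 0 else β ^ 2 * q l + V

/-- The value at the end: the fields alone. -/
lemma fe_zero_v (hK : 1 ≤ K) {L : ℕ} (hLK : L ≤ K) {m : ℕ → ℝ} (hm : Exponents K m) (β : ℝ)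
    (T : ℝ) {V : ℝ} (hV : 0 ≤ V) {q : ℕ → ℝ} (hq : Path K q) (hq0 : q 0 = 0) :
    ((vS N K L m).wH (it (vS N K L m).H (fun x => x) (va β T V) (vb β V q) 0)).fe =
      N * (spinPart K m (fun l => if l = 0 then 0 else β ^ 2 * q l + V) +
        (β ^ 2 * q K + V) / 2) := by
  have hS := vS_regD (N := N) hK hLK hm
  have hR := regD_it (α := va β T V) (β := vb β V q) hS pot_id 0
  have key := fe_field (S := (vS N K L m).wH (it (vS N K L m).H (fun x => x) (va β T V)
    (vb β V q) 0)) hR (φ := spin) (u := fun _ => -(N * Real.log 2)) (zc := gz)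
    (s := fun l => sv β V q l) ?_ ?_ ?_ ?_
  · rw [key]
    have h1 := Vale.Agent.P157.Par.topN_spin hm N (r := fun l =>
      ∑ j ∈ Finset.range (l + 1), (sv β V q j) ^ 2)
    refine h1.trans ?_
    have h2 : ∀ l ≤ K, ∑ j ∈ Finset.range (l + 1), (sv β V q j) ^ 2 =
        if l = 0 then 0 else β ^ 2 * q l + V := by
      intro l hl
      rw [sum_sv_sq β hV hq hl]
      by_cases h0 : l = 0
      · subst h0
        simp [hq0]
      · rw [if_neg h0, if_pos (by omega)]
    have h3 : spinPart K m (fun l => ∑ j ∈ Finset.range (l + 1), (sv β V q j) ^ 2) =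
        spinPart K m (fun l => if l = 0 then 0 else β ^ 2 * q l + V) := by
      unfold spinPart
      rw [br_cascade_congr (m := m) (q := fun l => ∑ j ∈ Finset.range (l + 1),
        (sv β V q j) ^ 2) (q' := fun l => if l = 0 then 0 else β ^ 2 * q l + V) h2]
      simp only [h2 0 (Nat.zero_le _), h2 K le_rfl]
    rw [h3, h2 K le_rfl, if_neg (by omega)]
  · intro l hl i
    have hl' : l ≤ K := hl
    show ((Fin.ofNat (K + 1) l : Fin (K + 1)) : ℕ) = l
    simp only [Fin.ofNat, Nat.mod_eq_of_lt (Nat.lt_succ_of_le hl')]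
  · intro l hl i j hij
    exact (Prod.ext_iff.1 (Sum.inr_injective hij)).2
  · intro l hl
    exact Real.sqrt_nonneg _
  · intro z x
    show -(N * Real.log 2) + itU (va β T V) (vb β V q) 0 z x = _
    unfold itU
    rw [Real.sin_zero, Real.cos_zero, zero_mul, one_mul, zero_add, lin_vb]
    rfl

/-! ### the value at the beginning -/

/-- the free energy of the full matrix in the field `h` -/
noncomputable def FV (β : ℝ) (h : Fin N → ℝ) (g : Ix N → ℝ) : ℝ :=
  Real.log (∑ x : Fin N → Bool, Real.exp (β / 2 * qf (Wm N g) (spin x) - N * Real.log 2 +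
    ∑ i, h i * spin x i))

lemma lip_FV (β : ℝ) (h : Fin N → ℝ) : Lip (FV β h) := by
  have hl : ∀ x : Fin N → Bool, Lip fun g : Ix N → ℝ =>
      β / 2 * qf (Wm N g) (spin x) - N * Real.log 2 + ∑ i, h i * spin x i := by
    intro x
    have h1 : Lip fun g : Ix N → ℝ => β / 2 * qf (Wm N g) (spin x) := by
      have e : (fun g : Ix N → ℝ => β / 2 * qf (Wm N g) (spin x)) =
          fun g => β / 2 * (2 / √(2 * (N : ℝ)) * ∑ i, ∑ j, spin x i * spin x j * g (i, j)) := by
        funext g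
        rw [Sk.qf_Wm]
        congr 2
        refine Finset.sum_congr rfl fun i _ => Finset.sum_congr rfl fun j _ => ?_
        ring
      rw [e]
      exact Lip.const_mul (Lip.const_mul (Lip.sum _ fun i _ => Lip.sum _ fun j _ =>
        Lip.const_mul (Lip.coord (i, j)) _) _) _
    have h2 := h1.add (Lip.const (-(N * Real.log 2) + ∑ i, h i * spin x i))
    have e : (fun g : Ix N → ℝ => β / 2 * qf (Wm N g) (spin x) - N * Real.log 2 +
        ∑ i, h i * spin x i) = fun g => β / 2 * qf (Wm N g) (spin x) +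
        (-(N * Real.log 2) + ∑ i, h i * spin x i) := by
      funext g
      ring
    rw [e]
    exact h2
  let S : Sy (Ix N) (Fin N → Bool) := ⟨fun _ => 0, 0, fun l => if l = 0 then 0 else 1,
    fun g x => β / 2 * qf (Wm N g) (spin x) - N * Real.log 2 + ∑ i, h i * spin x i⟩
  have hS : S.Reg :=
    { m0 := by
        show (if (0 : ℕ) = 0 then (0 : ℝ) else 1) = 0
        norm_num
      mK := by
        show (if (0 + 1 : ℕ) = 0 then (0 : ℝ) else 1) = 1
        norm_num
      mono := fun l hl => by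
        have hl0 : l = 0 := Nat.le_zero.1 hl
        subst hl0
        show (if (0 : ℕ) = 0 then (0 : ℝ) else 1) ≤ if 0 + 1 = 0 then 0 else 1
        norm_num
      pos := by
        show (0 : ℝ) < if (1 : ℕ) = 0 then 0 else 1
        norm_num
      lev := fun e => le_rfl
      lip := hl }
  exact hS.lip_top

lemma measurable_FV (β : ℝ) :
    Measurable fun p : (Fin N → ℝ) × (Ix N → ℝ) => FV β p.1 p.2 := by
  unfold FV
  simp only [Sk.qf_Wm]
  fun_prop

lemma measurable_W2V (β y T V : ℝ) : Measurable fun p : (Fin N → ℝ) × (Ix N → ℝ) =>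
    W2 y T (FV β (√V • p.1)) p.2 := by
  have h0 : Measurable fun r : ((Fin N → ℝ) × (Ix N → ℝ)) × (Ix N → ℝ) =>
      ((√V • r.1.1, cb2 T r.1.2 r.2) : (Fin N → ℝ) × (Ix N → ℝ)) := by
    refine Measurable.prodMk (measurable_fst.fst.const_smul (√V)) ?_
    exact (measurable_cb2 T).comp (measurable_fst.snd.prodMk measurable_snd)
  have h1 : Measurable fun r : ((Fin N → ℝ) × (Ix N → ℝ)) × (Ix N → ℝ) =>
      Real.exp (y * FV β (√V • r.1.1) (cb2 T r.1.2 r.2)) :=
    (((measurable_FV β).comp h0).const_mul y).exp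
  exact (h1.stronglyMeasurable.integral_prod_right' (ν := gI (Ix N))).measurable.log.const_mul _

lemma mp_v2 : MeasurePreserving (v2 (N := N) (K := K)) (gI (GI (I3 N) N K)) (gI (Ix N)) :=
  ((mp_right (ι := Ix N) (ι' := Ix N)).comp (mp_left (ι := Ix N ⊕ Ix N) (ι' := Fin N))).comp
    (mp_r0 (ι₀ := I3 N))

lemma mp_v31 : MeasurePreserving (fun z : GI (I3 N) N K → ℝ => (v3 z, v1 z))
    (gI (GI (I3 N) N K)) ((gI (Fin N)).prod (gI (Ix N))) := by
  have h1 : MeasurePreserving (MeasurableEquiv.sumPiEquivProdPi fun _ : I3 N => ℝ)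
      (gI (I3 N)) ((gI (Ix N ⊕ Ix N)).prod (gI (Fin N))) :=
    measurePreserving_sumPiEquivProdPi fun _ : I3 N => gaussianReal 0 1
  have h2 : MeasurePreserving (Prod.map (fun (z : Ix N ⊕ Ix N → ℝ) (e : Ix N) => z (Sum.inl e))
      (id : (Fin N → ℝ) → (Fin N → ℝ))) ((gI (Ix N ⊕ Ix N)).prod (gI (Fin N)))
      ((gI (Ix N)).prod (gI (Fin N))) :=
    (mp_left (ι := Ix N) (ι' := Ix N)).prod (MeasurePreserving.id _)
  have h3 : MeasurePreserving (Prod.swap : (Ix N → ℝ) × (Fin N → ℝ) → _)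
      ((gI (Ix N)).prod (gI (Fin N))) ((gI (Fin N)).prod (gI (Ix N))) :=
    Measure.measurePreserving_swap
  exact (h3.comp (h2.comp h1)).comp (mp_r0 (ι₀ := I3 N))

/-- The log-weight of the level one. -/
lemma lg_one_v (hK : 1 ≤ K) {L : ℕ} (hL : 2 ≤ L) (hLK : L ≤ K) {m : ℕ → ℝ} (hm : Exponents K m)
    (β T V : ℝ) (q : ℕ → ℝ) :
    ((vS N K L m).wH (it (vS N K L m).H (fun x => x) (va β T V) (vb β V q) (Real.pi / 2))).lg 1 =
      fun z => W2 (m L) T (FV β (√V • v3 z)) (v1 z) := by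
  have hS := vS_regD (N := N) hK hLK hm
  have hR := (regD_it (α := va β T V) (β := vb β V q) hS pot_id (Real.pi / 2)).toReg
  set R := (vS N K L m).wH (it (vS N K L m).H (fun x => x) (va β T V) (vb β V q) (Real.pi / 2))
    with hRdef
  have hH : ∀ z x, R.H z x = -(N * Real.log 2) +
      (β / 2 * qf (Wm N (cb2 T (v1 z) (v2 z))) (spin x) + ∑ i, (√V • v3 z) i * spin x i) := by
    intro z x
    show -(N * Real.log 2) + itU (va β T V) (vb β V q) (Real.pi / 2) z x = _
    unfold itU
    rw [Real.sin_pi_div_two, Real.cos_pi_div_two, zero_mul, one_mul, add_zero, lin_va]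
  have htop : ∀ z, R.top z = FV β (√V • v3 z) (cb2 T (v1 z) (v2 z)) := by
    intro z
    unfold Sy.top FV
    congr 1
    refine Finset.sum_congr rfl fun x _ => ?_
    rw [hH]
    congr 1
    ring
  have hRK : R.K = K := rfl
  have hm1 : ∀ l, R.m l = m l := fun _ => rfl
  have e1 : ∀ l, 1 ≤ l → ∀ z w, v1 (mix R.lev l z w) = v1 z := by
    intro l hl z w
    funext e
    unfold v1 mix
    exact if_pos hl
  have e3 : ∀ l, 1 ≤ l → ∀ z w, v3 (mix R.lev l z w) = v3 z := by
    intro l hl z w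
    funext e
    unfold v3 mix
    exact if_pos hl
  have e2 : ∀ l, L ≤ l → ∀ z w, v2 (mix R.lev l z w) = v2 z := by
    intro l hl z w
    funext e
    unfold v2 mix
    exact if_pos hl
  have e2' : ∀ l, l < L → ∀ z w, v2 (mix R.lev l z w) = v2 w := by
    intro l hl z w
    funext e
    unfold v2 mix
    exact if_neg (Nat.not_le.2 hl)
  -- the levels at least `L`
  have key : ∀ l ≤ R.K, L ≤ l → R.lg l = R.top := by
    intro l hl
    refine Sy.down_ind (P := fun l => L ≤ l → R.lg l = R.top) (fun _ => Sy.lg_top R)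
      (fun l hl ih hl1 => ?_) l hl
    rw [Sy.lg_step R hl, ih (by omega)]
    funext z
    have hd : Dep R.lev l (fun z => Real.exp (R.m (l + 1) * R.top z)) := by
      intro z w
      simp only [htop, e1 l (by omega) z w, e2 l hl1 z w, e3 l (by omega) z w]
    have hm' : R.m (l + 1) ≠ 0 := (hR.m_pos (by omega) (by omega)).ne'
    unfold Sy.stp
    rw [hd.J_eq, Real.log_exp]
    field_simp
  -- the level `L - 1`
  have hLl : R.lg (L - 1) = fun z => W2 (m L) T (FV β (√V • v3 z)) (v1 z) := by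
    rw [Sy.lg_step R (by omega), key (L - 1 + 1) (by omega) (by omega)]
    funext z
    unfold Sy.stp W2
    rw [hm1, Nat.sub_add_cancel (by omega : 1 ≤ L)]
    congr 2
    unfold J
    have h3 : ∀ w, Real.exp (m L * R.top (mix R.lev (L - 1) z w)) =
        Real.exp (m L * FV β (√V • v3 z) (cb2 T (v1 z) (v2 w))) := by
      intro w
      rw [htop, e1 (L - 1) (by omega) z w, e2' (L - 1) (by omega) z w,
        e3 (L - 1) (by omega) z w]
    simp only [h3]
    have h4 := mp_v2 (N := N) (K := K)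
    have h5 := (int_cb2 (lip_FV β (√V • v3 z)) (m L) T (v1 z)).aestronglyMeasurable
    rw [← h4.map_eq] at h5
    have h6 := integral_map h4.measurable.aemeasurable h5
    rw [h4.map_eq] at h6
    exact h6.symm
  -- the levels between `1` and `L - 1`
  have key2 : ∀ j, j ≤ L - 2 →
      R.lg (L - 1 - j) = fun z => W2 (m L) T (FV β (√V • v3 z)) (v1 z) := by
    intro j
    induction j with
    | zero => intro _; exact hLl
    | succ j ih =>
      intro hj
      have e4 : L - 1 - (j + 1) + 1 = L - 1 - j := by omega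
      rw [Sy.lg_step R (l := L - 1 - (j + 1)) (by omega), e4, ih (by omega)]
      funext z
      have hd : Dep R.lev (L - 1 - (j + 1)) (fun z => Real.exp (R.m (L - 1 - (j + 1) + 1) *
          W2 (m L) T (FV β (√V • v3 z)) (v1 z))) := by
        intro z w
        simp only [e1 (L - 1 - (j + 1)) (by omega) z w, e3 (L - 1 - (j + 1)) (by omega) z w]
      have hm' : R.m (L - 1 - (j + 1) + 1) ≠ 0 := (hR.m_pos (by omega) (by omega)).ne'
      unfold Sy.stp
      rw [hd.J_eq, Real.log_exp]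
      field_simp
  have := key2 (L - 2) le_rfl
  rwa [show L - 1 - (L - 2) = 1 by omega] at this

/-- The two-level moments are integrable. -/
lemma int_W2V {L : ℕ} (hL : 2 ≤ L) (hLK : L ≤ K) {m : ℕ → ℝ} (hm : Exponents K m)
    (β T V x : ℝ) : Integrable (fun p : (Fin N → ℝ) × (Ix N → ℝ) =>
      Real.exp (x * W2 (m L) T (FV β (√V • p.1)) p.2)) ((gI (Fin N)).prod (gI (Ix N))) := by
  have hK : 1 ≤ K := by omega
  have hS := vS_regD (N := N) hK hLK hm
  have hR := (regD_it (α := va β T V) (β := vb β V fun _ => 0) hS pot_id (Real.pi / 2)).toReg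
  have hmf : Measurable fun p : (Fin N → ℝ) × (Ix N → ℝ) =>
      Real.exp (x * W2 (m L) T (FV β (√V • p.1)) p.2) :=
    ((measurable_W2V β (m L) T V).const_mul x).exp
  have h1 := (((hR.lip_lg (l := 1) hK).exp_eg x).integrable)
  rw [lg_one_v hK hL hLK hm β T V fun _ => 0] at h1
  exact ((mp_v31 (N := N) (K := K)).integrable_comp hmf.aestronglyMeasurable).1 h1

/-- The value at the beginning: the two-level moment of the partition function. -/
lemma fe_one_v (hK : 1 ≤ K) {L : ℕ} (hL : 2 ≤ L) (hLK : L ≤ K) {m : ℕ → ℝ} (hm : Exponents K m)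
    (β T V : ℝ) {q : ℕ → ℝ} :
    ((vS N K L m).wH (it (vS N K L m).H (fun x => x) (va β T V) (vb β V q) (Real.pi / 2))).fe =
      1 / m 1 * Real.log (∫ z, ∫ u, Real.exp (m 1 * W2 (m L) T (FV β (√V • z)) u)
        ∂(gI (Ix N)) ∂(gI (Fin N))) := by
  have hS := vS_regD (N := N) hK hLK hm
  have hR := (regD_it (α := va β T V) (β := vb β V q) hS pot_id (Real.pi / 2)).toReg
  have hl1 := lg_one_v (N := N) hK hL hLK hm β T V q
  have hint := int_W2V (N := N) hL hLK hm β T V (m 1)
  set R := (vS N K L m).wH (it (vS N K L m).H (fun x => x) (va β T V) (vb β V q) (Real.pi / 2))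
    with hRdef
  have hRK : R.K = K := rfl
  have hm1 : ∀ l, R.m l = m l := fun _ => rfl
  have hmf : Measurable fun p : (Fin N → ℝ) × (Ix N → ℝ) =>
      Real.exp (m 1 * W2 (m L) T (FV β (√V • p.1)) p.2) :=
    ((measurable_W2V β (m L) T V).const_mul (m 1)).exp
  have h0 : R.lg 0 = fun _ => 1 / m 1 * Real.log (∫ z, ∫ u,
      Real.exp (m 1 * W2 (m L) T (FV β (√V • z)) u) ∂(gI (Ix N)) ∂(gI (Fin N))) := by
    rw [Sy.lg_step R (by omega), zero_add, hl1]
    funext z
    unfold Sy.stp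
    rw [hm1, zero_add]
    congr 2
    unfold J
    have h3 : ∀ w, Real.exp (m 1 * W2 (m L) T (FV β (√V • v3 (mix R.lev 0 z w)))
        (v1 (mix R.lev 0 z w))) = Real.exp (m 1 * W2 (m L) T (FV β (√V • v3 w)) (v1 w)) := by
      intro w
      have a1 : v1 (mix R.lev 0 z w) = v1 w := by
        funext e
        unfold v1 mix
        exact if_neg (by show ¬ (1 ≤ 0); omega)
      have a3 : v3 (mix R.lev 0 z w) = v3 w := by
        funext e
        unfold v3 mix
        exact if_neg (by show ¬ (1 ≤ 0); omega)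
      rw [a1, a3]
    simp only [h3]
    have h4 := mp_v31 (N := N) (K := K)
    have h5 : AEStronglyMeasurable (fun p : (Fin N → ℝ) × (Ix N → ℝ) =>
        Real.exp (m 1 * W2 (m L) T (FV β (√V • p.1)) p.2)) ((gI (Fin N)).prod (gI (Ix N))) :=
      hmf.aestronglyMeasurable
    rw [← h4.map_eq] at h5
    have h6 := integral_map h4.measurable.aemeasurable h5
    rw [h4.map_eq, integral_prod _ hint] at h6
    exact h6.symm
  unfold Sy.fe
  rw [h0]
  simp

/-- **Guerra's bound with two shares of the disorder and a plain field.** -/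
theorem gueV (hN : 0 < N) {L : ℕ} (hL : 2 ≤ L) (hLK : L ≤ K) {m q : ℕ → ℝ}
    (hm : Exponents K m) (hq : Path K q) (hq0 : q 0 = 0) {β T V : ℝ} (hT : 0 ≤ T)
    (hT1 : T < 1) (hV : 0 ≤ V) :
    1 / m 1 * Real.log (∫ z, ∫ u, Real.exp (m 1 * W2 (m L) T (FV β (√V • z)) u)
        ∂(gI (Ix N)) ∂(gI (Fin N))) ≤
      N * (spinPart K m (fun l => if l = 0 then 0 else β ^ 2 * q l + V) + V / 2 +
        β ^ 2 / 4 * (1 + ∑ l ∈ Finset.range (K + 1), (m (l + 1) - m l) * q l ^ 2) +
        β ^ 2 / 4 * (T / (1 - T) *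
          ∑ l ∈ Finset.range L, (m (l + 1) - m l) * q l ^ 2)) := by
  have hK : 1 ≤ K := by omega
  have hS := vS_regD (N := N) hK hLK hm
  have h := int_le hS pot_id (sep_v β T V q)
    (fun θ _ _ => brk_le_v hN hK (by omega) hLK hm β hT hT1 hV hq hq0 θ)
  rw [fe_zero_v hK hLK hm β T hV hq hq0, fe_one_v hK hL hLK hm β T V] at h
  have e : ∑ l ∈ Finset.range (K + 1), (m (l + 1) - m l) *
      (β ^ 2 / 2 * N * (q l ^ 2 / shl T L l)) =
      β ^ 2 / 2 * N * ((∑ l ∈ Finset.range (K + 1), (m (l + 1) - m l) * q l ^ 2) +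
        T / (1 - T) * ∑ l ∈ Finset.range L, (m (l + 1) - m l) * q l ^ 2) := by
    have h1 : ∀ l ∈ Finset.range (K + 1), (m (l + 1) - m l) *
        (β ^ 2 / 2 * N * (q l ^ 2 / shl T L l)) =
        β ^ 2 / 2 * N * ((m (l + 1) - m l) * q l ^ 2) +
          β ^ 2 / 2 * N * (T / (1 - T)) *
            (if l < L then (m (l + 1) - m l) * q l ^ 2 else 0) := by
      intro l _
      have h2 : (1 - T) ≠ 0 := by linarith
      unfold shl
      split_ifs
      · field_simp
        ring
      · ring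
    rw [Finset.sum_congr rfl h1, Finset.sum_add_distrib, ← Finset.mul_sum, ← Finset.mul_sum,
      ← Finset.sum_filter]
    have h3 : (Finset.range (K + 1)).filter (fun l => l < L) = Finset.range L := by
      ext j
      simp only [Finset.mem_filter, Finset.mem_range]
      omega
    rw [h3]
    ring
  rw [e] at h
  linarith only [h]

end Vale.Agent.P146.H346
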